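import Vale.Agent.P281.H713.Wrap
import Vale.Agent.P281.H713.TL.Defs

/-! P281, theorem TZ: the hand-ins RelativeDimOne, PeriodFibrations, GeneralTypeFibres for all
fibrations, without flatness, with the orbifold base dimension `TL.kodF` (Campana's `κ(f | Δ)`). -/

open scoped Manifold ContDiff Topology
open Set Filter Metric Vale.Agent.P281 Vale.Agent.P272.K
open Vale.Agent.P281.MF Vale.Agent.P281.ISO Vale.Agent.P281.ELL Vale.Agent.P281.H713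

noncomputable section

namespace Vale.Agent.P281.H713.TZ

/-- the minor of `A` with the columns `κ` -/
def mnr {n p : ℕ} (A : Cm n →L[ℂ] Cm p) (κ : Fin p → Fin n) : ℂ :=
  Matrix.det (Matrix.of fun a b : Fin p => A (Pi.single (κ b) 1) a)

/-- **Row Z1**: generic points of a hypersurface. -/
def GenPart : Prop := ∀ (E : Type) [NormedAddCommGroup E] [NormedSpace ℂ E]
  [FiniteDimensional ℂ E] (Den : E → ℂ) (x₀ : E) (_ : AnalyticAt ℂ Den x₀)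
  (_ : ¬ ∀ᶠ x in 𝓝 x₀, Den x = 0) (_ : Den x₀ = 0) (ι : Type) (_ : Finite ι) (b : ι → E → ℂ)
  (_ : ∀ i, AnalyticAt ℂ (b i) x₀) (U : Set E) (_ : U ∈ 𝓝 x₀),
  ∃ y ∈ U, Den y = 0 ∧ ∃ e : E → ℂ, AnalyticAt ℂ e y ∧ e y = 0 ∧ fderiv ℂ e y ≠ 0 ∧
    (∀ᶠ z in 𝓝 y, Den z = 0 ↔ e z = 0) ∧
    ∀ i, (∀ᶠ z in 𝓝 y, b i z = 0) ∨ ∃ (k : ℕ) (u : E → ℂ), AnalyticAt ℂ u y ∧ u y ≠ 0 ∧
      ∀ᶠ z in 𝓝 y, b i z = e z ^ k * u z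

/-- **Row Z2**: slices of the fibres of `F`, given a holomorphic distribution `L` tangent to them. -/
def SlicePart : Prop := ∀ (E E' E₀ : Type) [NormedAddCommGroup E] [NormedSpace ℂ E]
  [FiniteDimensional ℂ E] [NormedAddCommGroup E'] [NormedSpace ℂ E'] [FiniteDimensional ℂ E']
  [NormedAddCommGroup E₀] [NormedSpace ℂ E₀] [FiniteDimensional ℂ E₀]
  (_ : E ≃L[ℂ] (E' × E₀)) (F : E → E') (c₀ : E) (_ : AnalyticAt ℂ F c₀)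
  (L : E → E₀ →L[ℂ] E) (_ : AnalyticAt ℂ L c₀) (P : E →L[ℂ] E₀)
  (_ : ∀ᶠ c in 𝓝 c₀, P.comp (L c) = ContinuousLinearMap.id ℂ E₀)
  (_ : ∀ᶠ c in 𝓝 c₀, (fderiv ℂ F c).comp (L c) = 0) (W : Set E) (_ : W ∈ 𝓝 c₀),
  ∃ r : ℝ, 0 < r ∧ ∀ᶠ c in 𝓝 c₀,
    (∀ c' ∈ W, F c' = F c → Function.Injective ((fderiv ℂ F c').prod P)) →
    ∃ Q : E₀ → E, Q (P c) = c ∧ ∀ v ∈ ball (P c) r, ContDiffAt ℂ ω Q v ∧ Q v ∈ W ∧
      F (Q v) = F c ∧ P (Q v) = v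

/-- **Row Z3**: linear algebra; `det (A, P)` is a combination of minors of `A`; Cramer's formula for
a complement of the columns `J`. -/
def LinPart : Prop := ∀ (n p : ℕ) (E₀ : Type) [NormedAddCommGroup E₀] [NormedSpace ℂ E₀]
  [FiniteDimensional ℂ E₀] (e₀ : Cm n ≃L[ℂ] (Cm p × E₀)),
  (∀ P : Cm n →L[ℂ] E₀, ∃ c : (Fin p → Fin n) → ℂ, ∀ A : Cm n →L[ℂ] Cm p,
    JP e₀ A P = ∑ κ, c κ * mnr A κ) ∧
  ∀ J : Fin p → Fin n, Function.Injective J → ∃ (P : Cm n →L[ℂ] E₀) (s : E₀ →L[ℂ] Cm n),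
    (∀ v, P (s v) = v) ∧ (∀ b, P (Pi.single (J b) 1) = 0) ∧
    ∀ A : Cm n →L[ℂ] Cm p, mnr A J ≠ 0 → Function.Injective (A.prod P) ∧
      ∀ v, A (s v) = ∑ b, (∑ k, s v k * (mnr A (Function.update J b k) / mnr A J)) •
        A (Pi.single (J b) 1)

/-- **Row Z4**: the pole condition of `IsPullSection` on `Z`, in the charts of `Z`. -/
def PoleZPart : Prop := ∀ (n p : ℕ) (X Z Y : Type)
  [TopologicalSpace X] [T2Space X] [ChartedSpace (Cm n) X] [IsManifold 𝓘(ℂ, Cm n) ω X]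
  [TopologicalSpace Z] [ChartedSpace (Cm n) Z] [IsManifold 𝓘(ℂ, Cm n) ω Z]
  [TopologicalSpace Y] [ChartedSpace (Cm p) Y] [IsManifold 𝓘(ℂ, Cm p) ω Y]
  (j : Z → X) (_ : J.IsBigOpen (Cm n) j) (f : Z → Y) (_ : ContMDiff 𝓘(ℂ, Cm n) 𝓘(ℂ, Cm p) ω f)
  (Δ : Set X → ℝ) (_ : J.IsSNC (Cm n) Δ) (Δ' : Set Z → ℝ) (_ : J.IsSNC (Cm n) Δ')
  (_ : J.IsRestriction j Δ Δ') (𝒢 : Set (Set Y)) (m : ℕ) (K : Set X → ℕ)
  (_ : ∀ D, (K D : ℝ) ≤ m * Δ D) (σ : Y → ℂ)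
  (_ : TL.IsPullSection (n := n) (p := p) m K 𝒢 j f σ),
  ∃ K' : Set Z → ℕ, (∀ D, (K' D : ℝ) ≤ m * Δ' D) ∧
    ∀ (z₀ : Z) (T : Finset (Set Z)) (e : Set Z → Z → ℂ), (∀ D, K' D ≠ 0 → D ∈ T) →
      (∀ D ∈ T, J.IsLocalEq (Cm n) D (e D) z₀) → ∀ I : Fin m → Fin p → Fin n, ∃ a : Z → ℂ,
        J.HolAt (Cm n) a z₀ ∧ ∀ᶠ z in 𝓝 z₀, (∀ G ∈ 𝒢, f z ∉ G) → ∏ D ∈ T, e D z ^ K' D ≠ 0 →
          σ (f z) * TL.minors (n := n) (p := p) m (id : Z → Z) f z₀ z I *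
            ∏ D ∈ T, e D z ^ K' D = a z

end Vale.Agent.P281.H713.TZ
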