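import Vale.Agent.P281.H713.TZ.Bd

/-! P281, theorem TZ, row Z5: sections from relative forms and pull-backs with poles. -/

open scoped Manifold ContDiff Topology
open Set Filter Metric Vale.Agent.P281 Vale.Agent.P272.K
open Vale.Agent.P281.MF Vale.Agent.P281.ISO Vale.Agent.P281.ELL Vale.Agent.P281.H713

set_option linter.all false

noncomputable section

namespace Vale.Agent.P281.H713.TZ

variable {n p : ℕ} {Z Y : Type} [TopologicalSpace Z] [ChartedSpace (Cm n) Z]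
  [IsManifold 𝓘(ℂ, Cm n) ω Z] [TopologicalSpace Y] [ChartedSpace (Cm p) Y]
  [IsManifold 𝓘(ℂ, Cm p) ω Y]
variable {E₀ : Type} [NormedAddCommGroup E₀] [NormedSpace ℂ E₀] [FiniteDimensional ℂ E₀]

theorem holV_symm {g : Z → ℂ} {z₀ z : Z} (hz : z ∈ (chartAt (Cm n) z₀).source)
    {h : Cm n → ℂ} (hh : AnalyticAt ℂ h (chartAt (Cm n) z₀ z))
    (hg : ∀ᶠ w in 𝓝 z, g w = h (chartAt (Cm n) z₀ w)) : HolV (Cm n) g z := by
  have h1 : HolV (Cm n) (fun w => h (chartAt (Cm n) z₀ w)) z :=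
    HolV.comp_contDiff (G := h) hh.contDiffAt (HolV.chart hz)
  exact h1.congr_of_eventuallyEq hg

/-- generic points of a hypersurface, on manifolds -/
theorem genM (hgen : GenPart) {z : Z} {Den : Z → ℂ} (hD : HolV (Cm n) Den z)
    (hne : ¬ ∀ᶠ w in 𝓝 z, Den w = 0) (h0 : Den z = 0) {ι : Type} [Finite ι] {b : ι → Z → ℂ}
    (hb : ∀ i, HolV (Cm n) (b i) z) {U : Set Z} (hU : U ∈ 𝓝 z) :
    ∃ y ∈ U, Den y = 0 ∧ ∃ e : Z → ℂ, HolV (Cm n) e y ∧ e y = 0 ∧
      (¬ ∀ᶠ w in 𝓝 y, e w = 0) ∧ (∀ᶠ w in 𝓝 y, Den w = 0 ↔ e w = 0) ∧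
      ∀ i, (∀ᶠ w in 𝓝 y, b i w = 0) ∨ ∃ (k : ℕ) (u : Z → ℂ), HolV (Cm n) u y ∧ u y ≠ 0 ∧
        ∀ᶠ w in 𝓝 y, b i w = e w ^ k * u w := by
  classical
  set φ := chartAt (Cm n) z with hφ
  have hz : z ∈ φ.source := mem_chart_source (Cm n) z
  set c₀ : Cm n := φ z with hc₀
  have hsc : φ.symm c₀ = z := φ.left_inv hz
  have hφst : Tendsto φ.symm (𝓝 c₀) (𝓝 z) := by
    have := (φ.continuousAt_symm (φ.map_source hz)).tendsto
    rwa [hsc] at this
  obtain ⟨c, hcU, hc0, e, he, he0, hde, hev, hgen'⟩ := hgen (Cm n) (Den ∘ φ.symm) c₀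
    (hD.rep hz).analyticAt (by
      intro h
      apply hne
      filter_upwards [(φ.continuousAt hz).eventually h, φ.open_source.mem_nhds hz] with w h1 h2
      have h3 : Den (φ.symm (φ w)) = 0 := h1
      rwa [φ.left_inv h2] at h3) (by
      show Den (φ.symm c₀) = 0
      rw [hsc]; exact h0) ι ‹_› (fun i => b i ∘ φ.symm) (fun i => ((hb i).rep hz).analyticAt)
    (φ.target ∩ φ.symm ⁻¹' U) (inter_mem (φ.open_target.mem_nhds (φ.map_source hz)) (hφst hU))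
  have hct : c ∈ φ.target := hcU.1
  set y : Z := φ.symm c with hy
  have hys : y ∈ φ.source := φ.map_target hct
  have hφy : φ y = c := φ.right_inv hct
  have htend : Tendsto φ (𝓝 y) (𝓝 c) := by
    have := (φ.continuousAt hys).tendsto
    rwa [hφy] at this
  have hpull : ∀ {q : Cm n → Prop}, (∀ᶠ c' in 𝓝 c, q c') → ∀ᶠ w in 𝓝 y, q (φ w) ∧
      w ∈ φ.source := fun h => (htend.eventually h).and (φ.open_source.mem_nhds hys)
  refine ⟨y, hcU.2, hc0, fun w => e (φ w), ?_, ?_, ?_, ?_, ?_⟩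
  · refine holV_symm (z₀ := z) hys (h := e) (by rw [← hφ, hφy]; exact he) ?_
    exact Eventually.of_forall fun w => rfl
  · show e (φ y) = 0
    rw [hφy]; exact he0
  · intro h
    apply hde
    have h1 : e =ᶠ[𝓝 c] fun _ => (0 : ℂ) := by
      have h2 : Tendsto φ.symm (𝓝 c) (𝓝 y) := (φ.continuousAt_symm hct).tendsto
      filter_upwards [h2.eventually h, φ.open_target.mem_nhds hct] with c' h3 h4
      have h5 : e (φ (φ.symm c')) = 0 := h3
      rwa [φ.right_inv h4] at h5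
    rw [h1.fderiv_eq]
    exact fderiv_const_apply _
  · filter_upwards [hpull hev] with w hw
    have h1 := hw.1
    simp only [Function.comp_apply, φ.left_inv hw.2] at h1
    exact h1
  · intro i
    rcases hgen' i with h | ⟨k, u, hu, hu0, hue⟩
    · left
      filter_upwards [hpull h] with w hw
      have h1 := hw.1
      simp only [Function.comp_apply, φ.left_inv hw.2] at h1
      exact h1
    · right
      refine ⟨k, fun w => u (φ w), holV_symm (z₀ := z) hys (h := u)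
        (by rw [← hφ, hφy]; exact hu) (Eventually.of_forall fun w => rfl), ?_, ?_⟩
      · show u (φ y) ≠ 0
        rw [hφy]; exact hu0
      · filter_upwards [hpull hue] with w hw
        have h1 := hw.1
        simp only [Function.comp_apply, φ.left_inv hw.2] at h1
        exact h1

theorem liftT (hgen : GenPart) (hsl : SlicePart) (hlin : LinPart) {f : Z → Y}
    (hf : ∀ x, HolM (Cm n) (Cm p) f x) {S : Set Y} (hS : IsClosed S)
    (hsub : ∀ x, f x ∉ S → Function.Surjective (dM (Cm n) (Cm p) f x))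
    (e₀ : Cm n ≃L[ℂ] (Cm p × E₀))
    (hthin : ∀ x, ∃ h : Z → ℂ, HolV (Cm n) h x ∧ (¬ ∀ᶠ z in 𝓝 x, h z = 0) ∧
      ∀ᶠ z in 𝓝 x, f z ∈ S ↔ h z = 0)
    {N : ℕ} (hN : 0 < N) {𝒜 : Set (Set Z)} (h𝒜f : 𝒜.Finite)
    (h𝒜p : ∀ D ∈ 𝒜, IsPrimeDivisor (Cm n) D) {K : Set Z → ℕ} {Θ : Z → ℂ}
    (hΘ : RelForm f S e₀ N 𝒜 K Θ) (hKfin : {D | K D ≠ 0}.Finite)
    (hKpr : ∀ D, K D ≠ 0 → IsPrimeDivisor (Cm n) D) {t : Y → ℂ}
    (htS : ∀ y, y ∉ S → ∃ b : Y → ℂ, HolV (Cm p) b y ∧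
      ∀ᶠ y' in 𝓝 y, t y' = b y' * jac (Cm p) (chartAt (Cm p) y : Y → Cm p) y' ^ N)
    {K₁ : Set Z → ℕ} (hK₁ : ∀ D, K₁ D ≤ K D)
    (htP : ∀ (z₀ : Z) (T : Finset (Set Z)) (e : Set Z → Z → ℂ), (∀ D, K₁ D ≠ 0 → D ∈ T) →
      (∀ D ∈ T, IsLocalEq (Cm n) D (e D) z₀) → ∀ I : Fin N → Fin p → Fin n, ∃ a : Z → ℂ,
        HolV (Cm n) a z₀ ∧ ∀ᶠ z in 𝓝 z₀, f z ∉ S → ∏ D ∈ T, e D z ^ K₁ D ≠ 0 →
          t (f z) * TL.minors (n := n) (p := p) N (id : Z → Z) f z₀ z I *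
            ∏ D ∈ T, e D z ^ K₁ D = a z) :
    ∃ σ : Z → ℂ, IsSection (Cm n) (fun (D : Set Z) z g => IsLocalEq (Cm n) D g z) N K σ ∧
      ∀ x, f x ∉ S → (∀ D ∈ 𝒜, x ∉ D) → σ x = t (f x) * Θ x := by
  classical
  have hfc : ∀ x, ContinuousAt f x := fun x => (hf x).continuousAt
  have hfcont : Continuous f := continuous_iff_continuousAt.2 hfc
  set Ω₁ : Set Z := {z | f z ∉ S} with hΩ₁
  have hΩ₁o : IsOpen Ω₁ := hS.isOpen_compl.preimage hfcont
  have hΩ₁d : Dense Ω₁ := by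
    intro x
    obtain ⟨h, -, hne, hev⟩ := hthin x
    rw [mem_closure_iff_frequently]
    intro hcon
    apply hne
    filter_upwards [hcon, hev] with z hz hz'
    exact hz'.1 (not_not.1 hz)
  have h𝒜d := dense_compl_finite h𝒜f (fun D hD => (h𝒜p D hD).1) (fun D hD => by
    rw [dense_iff_inter_open]
    intro U hU hUne
    obtain ⟨x, hxU, hxD⟩ := IsLocalEq.exists_notMem (h𝒜p D hD).2.1 hU hUne
    exact ⟨x, hxU, hxD⟩)
  set Ω : Set Z := Ω₁ ∩ {z | ∀ D ∈ 𝒜, z ∉ D} with hΩ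
  have hΩd : Dense Ω := hΩ₁d.inter_of_isOpen_left h𝒜d.2 hΩ₁o
  set σ₀ : Z → ℂ := fun x => t (f x) * Θ x with hσ₀
  have hσ₀e : ∀ x, σ₀ x = t (f x) * Θ x := fun x => rfl
  obtain ⟨σ', hσ', hsec⟩ := extend_section (E := Cm n) (m := N) (K := K) hΩd (σ := σ₀) (by
    intro z₀
    obtain ⟨Den, hDen, hDne, hDev⟩ := hthin z₀
    have hTpr : ∀ D, K D ≠ 0 ∨ D ∈ 𝒜 → IsPrimeDivisor (Cm n) D := fun D hD =>
      hD.elim (hKpr D) (h𝒜p D)
    have hTfin : {D | K D ≠ 0 ∨ D ∈ 𝒜}.Finite := hKfin.union h𝒜f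
    have heX : ∀ D, ∃ e : Z → ℂ, (K D ≠ 0 ∨ D ∈ 𝒜) → IsLocalEq (Cm n) D e z₀ := by
      intro D
      by_cases hD : K D ≠ 0 ∨ D ∈ 𝒜
      · obtain ⟨e, he⟩ := (hTpr D hD).2.1 z₀
        exact ⟨e, fun _ => he⟩
      · exact ⟨fun _ => 0, fun h => absurd h hD⟩
    choose eX heX using heX
    set TX : Finset (Set Z) := hTfin.toFinset with hTX
    have hTXm : ∀ D, D ∈ TX ↔ (K D ≠ 0 ∨ D ∈ 𝒜) := fun D => by
      rw [hTX, Set.Finite.mem_toFinset]; rfl
    have hKTX : ∀ D, K D ≠ 0 → D ∈ TX := fun D hD => (hTXm D).2 (Or.inl hD)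
    have hK₁TX : ∀ D, K₁ D ≠ 0 → D ∈ TX := fun D hD => hKTX D (by have := hK₁ D; omega)
    have heX' : ∀ D ∈ TX, IsLocalEq (Cm n) D (eX D) z₀ := fun D hD => heX D ((hTXm D).1 hD)
    set φ := chartAt (Cm n) z₀ with hφ
    have hz₀s : z₀ ∈ φ.source := mem_chart_source (Cm n) z₀
    set PX : Z → ℂ := fun z => ∏ D ∈ TX, eX D z ^ K D with hPX
    set PX₁ : Z → ℂ := fun z => ∏ D ∈ TX, eX D z ^ K₁ D with hPX₁
    set PX₂ : Z → ℂ := fun z => ∏ D ∈ TX, eX D z ^ (K D - K₁ D) with hPX₂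
    have hPX12 : ∀ z, PX z = PX₁ z * PX₂ z := by
      intro z
      simp only [hPX, hPX₁, hPX₂]
      rw [← Finset.prod_mul_distrib]
      refine Finset.prod_congr rfl fun D _ => ?_
      rw [← pow_add]
      congr 1
      have := hK₁ D
      omega
    set h₀ : Z → ℂ := fun z => σ₀ z * PX z / jac (Cm n) φ z ^ N with hh₀
    choose a haH haE using fun I => htP z₀ TX eX hK₁TX heX' I
    have haE' := Filter.eventually_all.2 haE
    have heXe : ∀ᶠ z in 𝓝 z₀, ∀ D ∈ TX, IsLocalEq (Cm n) D (eX D) z := by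
      rw [Filter.eventually_all_finset]
      intro D hD
      exact (heX' D hD).eventually
    -- everything needed at points near `z₀`
    set W : Z → Prop := fun z => (∀ D ∈ TX, IsLocalEq (Cm n) D (eX D) z) ∧ z ∈ φ.source ∧
      (∀ I, HolV (Cm n) (a I) z) ∧ (∀ I, f z ∉ S → PX₁ z ≠ 0 →
        t (f z) * TL.minors (n := n) (p := p) N (id : Z → Z) f z₀ z I * PX₁ z = a I z) with hW
    have hWev : ∀ᶠ z in 𝓝 z₀, W z := by
      filter_upwards [heXe, φ.open_source.mem_nhds hz₀s,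
        Filter.eventually_all.2 fun I => HolV.eventually (E := Cm n) (haH I), haE'] with
        z h2 h3 h5 h6
      exact ⟨h2, h3, h5, h6⟩
    have hWW : ∀ᶠ z in 𝓝 z₀, ∀ᶠ z' in 𝓝 z, W z' := eventually_eventually_nhds.2 hWev
    have hPXh : ∀ z, W z → HolV (Cm n) PX z := fun z hz =>
      HolV.prod fun D hD => ((hz.1 D hD).holAt).pow (K D)
    have hPX₂h : ∀ z, W z → HolV (Cm n) PX₂ z := fun z hz =>
      HolV.prod fun D hD => ((hz.1 D hD).holAt).pow _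
    set P₁ : Z → ℂ := fun z => ∏ D ∈ TX, eX D z with hP₁
    have hP₁h : HolV (Cm n) P₁ z₀ := HolV.prod fun D hD => (heX' D hD).holAt
    have hP₁h' : ∀ z, W z → HolV (Cm n) P₁ z := fun z hz =>
      HolV.prod fun D hD => (hz.1 D hD).holAt
    have hPP : ∀ (q : Set Z → ℕ) z, P₁ z ≠ 0 → ∏ D ∈ TX, eX D z ^ q D ≠ 0 := by
      intro q z hz
      refine Finset.prod_ne_zero_iff.2 fun D hD => pow_ne_zero _ ?_
      exact Finset.prod_ne_zero_iff.1 hz D hD
    have hPA : ∀ z, W z → P₁ z ≠ 0 → ∀ D ∈ 𝒜, z ∉ D := by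
      intro z hz h0 D hD hzD
      have hDT : D ∈ TX := (hTXm D).2 (Or.inr hD)
      exact Finset.prod_ne_zero_iff.1 h0 D hDT ((hz.1 D hDT).mem_iff.1 hzD)
    have hAP : ∀ z, W z → (∀ D ∈ 𝒜, z ∉ D) → PX z ≠ 0 → P₁ z ≠ 0 := by
      intro z hz hzA h0
      refine Finset.prod_ne_zero_iff.2 fun D hD h1 => ?_
      rcases (hTXm D).1 hD with h2 | h2
      · exact Finset.prod_ne_zero_iff.1 h0 D hD (by rw [h1, zero_pow h2])
      · exact hzA D h2 ((hz.1 D hD).mem_iff.2 h1)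
    have hhol : ∀ z, (∀ᶠ z' in 𝓝 z, W z') → f z ∉ S →
        ∃ H₁ : Z → ℂ, HolV (Cm n) H₁ z ∧ ∀ᶠ z' in 𝓝 z, P₁ z' ≠ 0 → h₀ z' = H₁ z' := by
      intro z hz hzS
      have hz0 := hz.self_of_nhds
      obtain ⟨bY, hbY, hbYe⟩ := htS (f z) hzS
      obtain ⟨H, hH, hHe⟩ := hΘ.hol z₀ z (f z) hzS hz0.2.1 (mem_chart_source _ _) TX eX hKTX
        (fun D hD => hz0.1 D hD)
      refine ⟨fun z => bY (f z) * H z, (HolV.comp (E' := Cm p) hbY (hf z)).mul hH, ?_⟩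
      filter_upwards [hz, hHe, (hfc z).eventually hbYe] with z' h2 h4 h5 hP₁0
      have h8 := h4 (hPA z' h2 hP₁0) (hPP K z' hP₁0)
      have hj : jac (Cm n) φ z' ^ N ≠ 0 := pow_ne_zero _ (jac_chart_ne_zero h2.2.1)
      simp only [hh₀]
      rw [hσ₀e z', div_eq_iff hj, h5]
      linear_combination bY (f z') * h8
    have hhol' : ∀ z, (∀ᶠ z' in 𝓝 z, W z') → f z ∉ S → P₁ z ≠ 0 → HolV (Cm n) h₀ z := by
      intro z hz hzS h0
      obtain ⟨H₁, hH₁, hH₁e⟩ := hhol z hz hzS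
      refine hH₁.congr ?_
      filter_upwards [hH₁e, (hP₁h' z hz.self_of_nhds).continuousAt.eventually_ne h0] with z' h1 h2
        using h1 h2
    set Den' : Z → ℂ := fun z => Den z * P₁ z with hDen'
    have hDen'h : HolV (Cm n) Den' z₀ := hDen.mul hP₁h
    have hfr : ∀ᶠ y in 𝓝 z₀, ∃ᶠ z in 𝓝 y, Den' z ≠ 0 :=
      freq_mul hDen (ne_frequently hDen hDne) (freq_prod (fun D hD => (heX' D hD).holAt)
        (fun D hD => leq_frequently_ne (heX' D hD)))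
    obtain ⟨Q, hQ, hQe⟩ := extendM_off (h := h₀) (Den := Den') hDen'h
      (fun hcon => hfr.self_of_nhds (by simpa using hcon)) (by
      filter_upwards [hWW, hDev] with z hz hz' hz0
      exact hhol' z hz (fun hzS => left_ne_zero_of_mul hz0 (hz'.1 hzS))
        (right_ne_zero_of_mul hz0)) (by
      filter_upwards [hWW, eventually_eventually_nhds.2 hDev, hfr, hDen'h.eventually] with
        z hz hz'' hzf hzh hz0
      have hself : ∀ y, (∀ᶠ z' in 𝓝 y, W z') → f y ∉ S →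
          ∃ C : ℝ, ∀ᶠ w in 𝓝 y, Den' w ≠ 0 → ‖h₀ w‖ ≤ C := by
        intro y hyW hyS
        obtain ⟨H₁, hH₁, hH₁e⟩ := hhol y hyW hyS
        refine ⟨‖H₁ y‖ + 1, ?_⟩
        filter_upwards [hH₁e, (HolV.continuousAt (E := Cm n) hH₁).norm.eventually_lt_const
          (lt_add_one ‖H₁ y‖)] with w h1 h2 h3
        rw [h1 (right_ne_zero_of_mul h3)]
        exact h2.le
      rw [mem_closure_iff_nhds]
      intro U hU
      -- shrink `U`
      obtain ⟨U', hU', hU'o, hzU'⟩ := _root_.eventually_nhds_iff.1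
        ((hz.eventually_nhds.and hz''.eventually_nhds).and
          (eventually_eventually_nhds.2 (show ∀ᶠ w in 𝓝 z, w ∈ U from hU)))
      obtain ⟨y, hyU', hy0, e, he, he0, hene, hee, hord⟩ := genM hgen (z := z) (Den := Den') hzh
        (fun hcon => hzf (by simpa using hcon)) hz0 (b := fun J : Fin p → Fin n =>
          a (fun _ => J)) (fun J => hz.self_of_nhds.2.2.1 _) (hU'o.mem_nhds hzU')
      obtain ⟨⟨hyW, hyD⟩, hyU⟩ := hU' y hyU'
      by_cases hcase : ∀ᶠ w in 𝓝 y, Den' w = 0 → f w ∈ S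
      swap
      · -- a point off `S`
        have h1 : ∃ᶠ w in 𝓝 y, Den' w = 0 ∧ f w ∉ S := by
          intro hcon
          apply hcase
          filter_upwards [hcon] with w hw hw0
          by_contra hwS
          exact hw ⟨hw0, hwS⟩
        obtain ⟨w, ⟨hw0, hwS⟩, hwU, hwW⟩ := (h1.and_eventually
          (hyU.and hyW.eventually_nhds)).exists
        exact ⟨w, hwU, hw0, hself w hwW hwS⟩
      refine ⟨y, hyU.self_of_nhds, hy0, ?_⟩
      have heS : ∀ᶠ w in 𝓝 y, f w ∈ S ↔ e w = 0 := by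
        filter_upwards [hcase, hee, hyD] with w h1 h2 h3
        constructor
        · intro h4
          exact h2.1 (by rw [hDen']; simp [h3.1 h4])
        · exact fun h4 => h1 (h2.2 h4)
      have hP₁0 : ∀ᶠ w in 𝓝 y, f w ∉ S → P₁ w ≠ 0 := by
        filter_upwards [heS, hee] with w h1 h2 h3 h4
        apply h3
        refine h1.2 (h2.1 ?_)
        rw [hDen']
        simp [h4]
      obtain ⟨C, hC⟩ := bd_T hsl hlin hf hsub e₀ hN (𝒜 := 𝒜) (Θ := Θ) hΘ.bound (z₀ := z₀) (y := y)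
        hyW.self_of_nhds.2.1 (t := t) (PX := PX₁) (a := a) hyW.self_of_nhds.2.2.1 (by
          filter_upwards [hyW, hP₁0] with w h1 h2 h3 I
          exact h1.2.2.2 I h3 (hPP K₁ w (h2 h3))) he hene heS hord (by
          filter_upwards [hyW, hP₁0] with w h1 h2 h3
          exact hPA w h1 (h2 h3))
      have hc2 := (hPX₂h y hyW.self_of_nhds).continuousAt
      refine ⟨|C| * (‖PX₂ y‖ + 1), ?_⟩
      filter_upwards [hC, hc2.norm.eventually_lt_const (lt_add_one _), hyW, hyD] with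
        w h1 h2 h3 h4 h5
      have hwS : f w ∉ S := fun h => left_ne_zero_of_mul h5 (h4.1 h)
      have hj : jac (Cm n) φ w ^ N ≠ 0 := pow_ne_zero _ (jac_chart_ne_zero h3.2.1)
      have h6 := h1 hwS
      simp only [hh₀]
      rw [hσ₀e w, norm_div, div_le_iff₀ (norm_pos_iff.2 hj), hPX12]
      calc ‖t (f w) * Θ w * (PX₁ w * PX₂ w)‖ = ‖t (f w) * Θ w * PX₁ w‖ * ‖PX₂ w‖ := by
            rw [← norm_mul]; congr 1; ring
        _ ≤ (C * ‖jac (Cm n) φ w ^ N‖) * ‖PX₂ w‖ := by gcongr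
        _ ≤ (|C| * ‖jac (Cm n) φ w ^ N‖) * (‖PX₂ y‖ + 1) := by
            gcongr
            exact le_abs_self C
        _ = |C| * (‖PX₂ y‖ + 1) * ‖jac (Cm n) φ w ^ N‖ := by ring)
    refine ⟨TX, eX, Q, hKTX, heX', hQ, ?_⟩
    filter_upwards [hQe, eventually_eventually_nhds.2 hQe, hWW, hfr,
      hQ.eventually] with z h1 h2 h3 h4 h5 hzS hPz
    have hj : jac (Cm n) φ z ^ N ≠ 0 :=
      pow_ne_zero _ (jac_chart_ne_zero h3.self_of_nhds.2.1)
    have h6 : h₀ z = Q z := by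
      by_contra hcon
      have h7 : ContinuousAt (fun y => h₀ y - Q y) z :=
        (hhol' z h3 hzS.1 (hAP z h3.self_of_nhds hzS.2 hPz)).continuousAt.sub h5.continuousAt
      have h8 := h7.eventually_ne (sub_ne_zero.2 hcon)
      obtain ⟨y, hy, hy1, hy2⟩ := (h4.and_eventually (h2.and h8)).exists
      exact hy2 (sub_eq_zero.2 (hy1 hy))
    show σ₀ z * PX z = Q z * jac (Cm n) φ z ^ N
    rw [← h6]
    simp only [hh₀]
    rw [div_mul_cancel₀ _ hj])
  exact ⟨σ', hsec, fun x hx hxA => by rw [hσ' x ⟨hx, hxA⟩, hσ₀e x]⟩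

end Vale.Agent.P281.H713.TZ
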