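import Vale.Agent.P281.H713.TZ.Iface
import Vale.Agent.P281.H713.SA.T2

/-! P281, theorem TZ, row Z5: relative forms times pull-backs are bounded at generic points. -/

open scoped Manifold ContDiff Topology
open Set Filter Metric Vale.Agent.P281 Vale.Agent.P272.K
open Vale.Agent.P281.MF Vale.Agent.P281.ISO Vale.Agent.P281.ELL Vale.Agent.P281.H713

set_option linter.all false

noncomputable section

namespace Vale.Agent.P281.H713.TZ

theorem mnr_comp {n p : ℕ} (S : Cm p →L[ℂ] Cm p) (A : Cm n →L[ℂ] Cm p) (κ : Fin p → Fin n) :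
    mnr (S.comp A) κ = S.det * mnr A κ := by
  classical
  have h1 : S.det = Matrix.det (LinearMap.toMatrix' (S : Cm p →ₗ[ℂ] Cm p)) := by
    rw [LinearMap.det_toMatrix']
  unfold mnr
  rw [h1, ← Matrix.det_mul]
  congr 1
  ext a b
  rw [Matrix.mul_apply, Matrix.of_apply, ContinuousLinearMap.comp_apply]
  have h2 : S (A (Pi.single (κ b) 1)) = Matrix.mulVec (LinearMap.toMatrix' (S : Cm p →ₗ[ℂ] Cm p))
      (A (Pi.single (κ b) 1)) := by
    rw [LinearMap.toMatrix'_mulVec]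
    rfl
  rw [h2]
  rfl

theorem mnr_not_inj {n p : ℕ} (A : Cm n →L[ℂ] Cm p) {κ : Fin p → Fin n}
    (h : mnr A κ ≠ 0) : Function.Injective κ := by
  intro a b hab
  by_contra hne
  apply h
  unfold mnr
  refine Matrix.det_zero_of_column_eq (i := a) (j := b) hne fun k => ?_
  simp [hab]

theorem exists_mnr {n p : ℕ} {A : Cm n →L[ℂ] Cm p} (hA : Function.Surjective A) :
    ∃ κ : Fin p → Fin n, mnr A κ ≠ 0 := by
  classical
  by_contra hcon
  push Not at hcon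
  -- choose preimages of the standard basis
  choose v hv using fun b : Fin p => hA (Pi.single b 1)
  have h1 : ∀ b, A (v b) = ∑ k, v b k • A (Pi.single k 1) := by
    intro b
    conv_lhs => rw [← Finset.univ_sum_single (v b)]
    rw [map_sum]
    refine Finset.sum_congr rfl fun k _ => ?_
    have h2 : (Pi.single k (v b k) : Cm n) = v b k • Pi.single k 1 := by
      rw [← Pi.single_smul, smul_eq_mul, mul_one]
    rw [h2, map_smul]
  have h2 : Matrix.det (Matrix.of fun b a : Fin p => A (v b) a) = 1 := by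
    have h3 : (Matrix.of fun b a : Fin p => A (v b) a) = 1 := by
      ext b a
      rw [Matrix.of_apply, hv b, Matrix.one_apply, Pi.single_apply]
      simp [eq_comm]
    rw [h3, Matrix.det_one]
  have h3 : (Matrix.of fun b a : Fin p => A (v b) a) =
      fun b => ∑ k, v b k • A (Pi.single k 1) := by
    ext b a
    rw [Matrix.of_apply, h1 b]
  have h4 : Matrix.det (fun b => ∑ k, v b k • A (Pi.single k 1) : Matrix (Fin p) (Fin p) ℂ) =
      ∑ κ : Fin p → Fin n, (∏ b, v b (κ b)) *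
        Matrix.det (fun b => A (Pi.single (κ b) 1) : Matrix (Fin p) (Fin p) ℂ) := by
    have h5 := (Matrix.detRowAlternating (n := Fin p) (R := ℂ)).toMultilinearMap.map_sum
      (fun (b : Fin p) (k : Fin n) => v b k • (A (Pi.single k 1) : Fin p → ℂ))
    refine Eq.trans h5 ?_
    refine Finset.sum_congr rfl fun κ _ => ?_
    have h6 := (Matrix.detRowAlternating (n := Fin p) (R := ℂ)).toMultilinearMap.map_smul_univ
      (fun b => v b (κ b)) (fun b => (A (Pi.single (κ b) 1) : Fin p → ℂ))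
    exact h6
  have h5 : ∀ κ : Fin p → Fin n,
      Matrix.det (fun b => A (Pi.single (κ b) 1) : Matrix (Fin p) (Fin p) ℂ) = 0 := by
    intro κ
    have h6 := hcon κ
    unfold mnr at h6
    rw [← Matrix.det_transpose] at h6
    exact h6
  rw [h3, h4] at h2
  have h6 : ∑ κ : Fin p → Fin n, (∏ b, v b (κ b)) *
        Matrix.det (fun b => A (Pi.single (κ b) 1) : Matrix (Fin p) (Fin p) ℂ) = 0 :=
    Finset.sum_eq_zero fun κ _ => by rw [h5 κ, mul_zero]
  rw [h6] at h2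
  exact zero_ne_one h2

theorem mnr_cont {n p : ℕ} (κ : Fin p → Fin n) :
    ContDiff ℂ ω (fun A : Cm n →L[ℂ] Cm p => mnr A κ) := by
  unfold mnr
  simp only [Matrix.det_apply]
  refine ContDiff.sum fun σ _ => ?_
  refine ContDiff.const_smul _ ?_
  refine contDiff_prod fun i _ => ?_
  have h1 : ContDiff ℂ ω (fun A : Cm n →L[ℂ] Cm p => A (Pi.single (κ i) 1)) :=
    contDiff_id.clm_apply contDiff_const
  exact (contDiff_apply ℂ ℂ (σ i)).comp h1

section

variable {n p : ℕ} {Z Y : Type} [TopologicalSpace Z] [ChartedSpace (Cm n) Z]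
  [IsManifold 𝓘(ℂ, Cm n) ω Z] [TopologicalSpace Y] [ChartedSpace (Cm p) Y]
  [IsManifold 𝓘(ℂ, Cm p) ω Y]
variable {E₀ : Type} [NormedAddCommGroup E₀] [NormedSpace ℂ E₀] [FiniteDimensional ℂ E₀]

/-- the differential of `f` in the coordinates of the chart at `z₀` -/
def dA (f : Z → Y) (z₀ z : Z) : Cm n →L[ℂ] Cm p :=
  (dM (Cm n) (Cm p) f z).comp (Ring.inverse (dV (Cm n) (chartAt (Cm n) z₀ : Z → Cm n) z))

theorem minors_eq (N : ℕ) (f : Z → Y) (z₀ z : Z) (I : Fin N → Fin p → Fin n) :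
    TL.minors (n := n) (p := p) N (id : Z → Z) f z₀ z I = ∏ r, mnr (dA (n := n) (p := p) f z₀ z) (I r) := rfl

theorem dA_comp {f : Z → Y} {z₀ z : Z} (hz : z ∈ (chartAt (Cm n) z₀).source) :
    (dA (n := n) (p := p) f z₀ z).comp (dV (Cm n) (chartAt (Cm n) z₀ : Z → Cm n) z) = dM (Cm n) (Cm p) f z := by
  have h1 := Ring.inverse_mul_cancel _ (H713.SA.isUnit_dV_chart (E := Cm n) hz)
  refine ContinuousLinearMap.ext fun v => ?_
  have h2 := congrArg (fun T : Cm n →L[ℂ] Cm n => T v) h1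
  show dM (Cm n) (Cm p) f z (Ring.inverse (dV (Cm n) (chartAt (Cm n) z₀ : Z → Cm n) z)
    (dV (Cm n) (chartAt (Cm n) z₀ : Z → Cm n) z v)) = _
  congr 1

theorem fderiv_dA {f : Z → Y} (hf : ∀ x, HolM (Cm n) (Cm p) f x) {z₀ z : Z} {y₀ : Y}
    (hz : z ∈ (chartAt (Cm n) z₀).source) (hfz : f z ∈ (chartAt (Cm p) y₀).source) :
    fderiv ℂ ((fun z => chartAt (Cm p) y₀ (f z)) ∘ (chartAt (Cm n) z₀).symm)
      (chartAt (Cm n) z₀ z) = (dV (Cm p) (chartAt (Cm p) y₀ : Y → Cm p) (f z)).comp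
        (dA (n := n) (p := p) f z₀ z) := by
  set φ := chartAt (Cm n) z₀ with hφ
  set ψ := chartAt (Cm p) y₀ with hψ
  have hψf : HolV (Cm n) (fun z => ψ (f z)) z :=
    HolV.comp (h := (ψ : Y → Cm p)) (HolV.chart hfz) (hf z)
  have h3 : dV (Cm n) (fun z => ψ (f z)) z =
      (fderiv ℂ ((fun z => ψ (f z)) ∘ φ.symm) (φ z)).comp (dV (Cm n) (φ : Z → Cm n) z) :=
    dV_eq_chart hz hψf
  have h4 : dV (Cm n) (fun z => ψ (f z)) z =
      (dV (Cm p) (ψ : Y → Cm p) (f z)).comp (dM (Cm n) (Cm p) f z) :=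
    dV_comp (h := (ψ : Y → Cm p)) (HolV.chart hfz) (hf z)
  have h5 := Ring.mul_inverse_cancel _ (H713.SA.isUnit_dV_chart (E := Cm n) hz)
  refine ContinuousLinearMap.ext fun v => ?_
  have h6 : dV (Cm n) (φ : Z → Cm n) z (Ring.inverse (dV (Cm n) (φ : Z → Cm n) z) v) = v :=
    congrArg (fun T : Cm n →L[ℂ] Cm n => T v) h5
  have h7 := congrArg (fun T : Cm n →L[ℂ] Cm p =>
    T (Ring.inverse (dV (Cm n) (φ : Z → Cm n) z) v)) (h3.symm.trans h4)
  simp only [ContinuousLinearMap.comp_apply] at h7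
  rw [h6] at h7
  exact h7

/-- **relative forms times pull-backs are bounded at the generic points** -/
theorem bd_T (hsl : SlicePart) (hlin : LinPart) {f : Z → Y} (hf : ∀ x, HolM (Cm n) (Cm p) f x)
    {S : Set Y} (hsub : ∀ x, f x ∉ S → Function.Surjective (dM (Cm n) (Cm p) f x))
    (e₀ : Cm n ≃L[ℂ] (Cm p × E₀)) {N : ℕ} (hN : 0 < N) {𝒜 : Set (Set Z)} {Θ : Z → ℂ}
    (hbd : ∀ r : ℝ, 0 < r → ∃ C : ℝ, ∀ (v₀ : E₀) (Q : E₀ → Z),
      (∀ v ∈ ball v₀ r, ContMDiffAt 𝓘(ℂ, E₀) 𝓘(ℂ, Cm n) ω Q v) → InjOn Q (ball v₀ r) →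
      (∀ v ∈ ball v₀ r, f (Q v) = f (Q v₀)) → f (Q v₀) ∉ S →
      (∀ v ∈ ball v₀ r, ∀ D ∈ 𝒜, Q v ∉ D) → ∀ P : Cm n →L[ℂ] E₀,
      P.comp (mfderiv 𝓘(ℂ, E₀) 𝓘(ℂ, Cm n) Q v₀ : E₀ →L[ℂ] Cm n) =
        ContinuousLinearMap.id ℂ E₀ →
      ‖Θ (Q v₀)‖ ≤ C * ‖JP e₀ (dM (Cm n) (Cm p) f (Q v₀)) P ^ N‖)
    {z₀ y : Z} (hy : y ∈ (chartAt (Cm n) z₀).source) {t : Y → ℂ} {PX : Z → ℂ}
    {a : (Fin N → Fin p → Fin n) → Z → ℂ} (ha : ∀ I, HolV (Cm n) (a I) y)
    (hev : ∀ᶠ z in 𝓝 y, f z ∉ S → ∀ I,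
      t (f z) * TL.minors (n := n) (p := p) N (id : Z → Z) f z₀ z I * PX z = a I z)
    {e : Z → ℂ} (he : HolV (Cm n) e y) (hne : ¬ ∀ᶠ z in 𝓝 y, e z = 0)
    (heS : ∀ᶠ z in 𝓝 y, f z ∈ S ↔ e z = 0)
    (hgen : ∀ J : Fin p → Fin n, (∀ᶠ z in 𝓝 y, a (fun _ => J) z = 0) ∨
      ∃ (k : ℕ) (u : Z → ℂ), HolV (Cm n) u y ∧ u y ≠ 0 ∧
        ∀ᶠ z in 𝓝 y, a (fun _ => J) z = e z ^ k * u z)
    (hav : ∀ᶠ z in 𝓝 y, f z ∉ S → ∀ D ∈ 𝒜, z ∉ D) :
    ∃ C : ℝ, ∀ᶠ z in 𝓝 y, f z ∉ S →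
      ‖t (f z) * Θ z * PX z‖ ≤ C * ‖jac (Cm n) (chartAt (Cm n) z₀ : Z → Cm n) z ^ N‖ := by
  classical
  set φ := chartAt (Cm n) z₀ with hφ
  set ψ := chartAt (Cm p) (f y) with hψ
  have hys : f y ∈ ψ.source := mem_chart_source (Cm p) (f y)
  have hmem : φ ∈ IsManifold.maximalAtlas 𝓘(ℂ, Cm n) ω Z := IsManifold.chart_mem_maximalAtlas _
  set b : (Fin p → Fin n) → Z → ℂ := fun J => a (fun _ => J) with hb
  have hbev : ∀ᶠ z in 𝓝 y, f z ∉ S → ∀ J, t (f z) * mnr (dA (n := n) (p := p) f z₀ z) J ^ N * PX z = b J z := by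
    filter_upwards [hev] with z hz hzS J
    have h1 := hz hzS (fun _ => J)
    rw [minors_eq, Finset.prod_const, Finset.card_univ, Fintype.card_fin] at h1
    exact h1
  by_cases hall : ∀ J, ∀ᶠ z in 𝓝 y, b J z = 0
  · -- the trivial case
    refine ⟨0, ?_⟩
    have h1 : ∀ᶠ z in 𝓝 y, ∀ J, b J z = 0 := Filter.eventually_all.2 hall
    filter_upwards [h1, hbev, φ.open_source.mem_nhds hy] with z h1 h2 h3 hzS
    obtain ⟨J, hJ⟩ : ∃ J : Fin p → Fin n, mnr (dA (n := n) (p := p) f z₀ z) J ≠ 0 := by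
      refine exists_mnr fun η => ?_
      obtain ⟨ξ, hξ⟩ := hsub z hzS η
      refine ⟨dV (Cm n) (φ : Z → Cm n) z ξ, ?_⟩
      have h4 := congrArg (fun T : Cm n →L[ℂ] Cm p => T ξ) (dA_comp (f := f) h3)
      simp only [ContinuousLinearMap.comp_apply] at h4
      rw [h4, hξ]
    have h4 := h2 hzS J
    rw [h1 J] at h4
    have h5 : t (f z) * PX z = 0 := by
      have h6 : (t (f z) * PX z) * mnr (dA (n := n) (p := p) f z₀ z) J ^ N = 0 := by rw [← h4]; ring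
      exact (mul_eq_zero.1 h6).resolve_right (pow_ne_zero _ hJ)
    have h6 : t (f z) * Θ z * PX z = 0 := by
      calc t (f z) * Θ z * PX z = (t (f z) * PX z) * Θ z := by ring
        _ = 0 := by rw [h5, zero_mul]
    rw [h6, norm_zero, zero_mul]
  -- the orders
  have hgen' : ∀ J, ∃ (k : ℕ) (u : Z → ℂ), ¬ (∀ᶠ z in 𝓝 y, b J z = 0) →
      HolV (Cm n) u y ∧ u y ≠ 0 ∧ ∀ᶠ z in 𝓝 y, b J z = e z ^ k * u z := by
    intro J
    rcases hgen J with h | ⟨k, u, h⟩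
    · exact ⟨0, 0, fun h' => absurd h h'⟩
    · exact ⟨k, u, fun _ => h⟩
  choose k u hku using hgen'
  obtain ⟨J₀, hJ₀⟩ : ∃ J, ¬ ∀ᶠ z in 𝓝 y, b J z = 0 := by
    by_contra hcon
    push Not at hcon
    exact hall fun J => by
      have := hcon J
      exact this
  obtain ⟨J, hJ, hJmin⟩ : ∃ J, (¬ ∀ᶠ z in 𝓝 y, b J z = 0) ∧
      ∀ J', (¬ ∀ᶠ z in 𝓝 y, b J' z = 0) → k J ≤ k J' := by
    obtain ⟨J, hJm, hJ2⟩ := (Finset.univ.filter fun J => ¬ ∀ᶠ z in 𝓝 y, b J z = 0).exists_min_image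
      k ⟨J₀, Finset.mem_filter.2 ⟨Finset.mem_univ _, hJ₀⟩⟩
    exact ⟨J, (Finset.mem_filter.1 hJm).2, fun J' h =>
      hJ2 J' (Finset.mem_filter.2 ⟨Finset.mem_univ _, h⟩)⟩
  obtain ⟨huJ, huJ0, hbJ⟩ := hku J hJ
  have hfc : ContinuousAt f y := (hf y).continuousAt
  have hfs : ∀ᶠ z in 𝓝 y, f z ∈ ψ.source := hfc.eventually (ψ.open_source.mem_nhds hys)
  -- `mnr J` does not vanish off `S`
  have hmJ : ∀ᶠ z in 𝓝 y, f z ∉ S → mnr (dA (n := n) (p := p) f z₀ z) J ≠ 0 := by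
    filter_upwards [hbev, hbJ, huJ.continuousAt.eventually_ne huJ0, heS] with z h1 h2 h3 h4 hzS h0
    have h5 := h1 hzS J
    rw [h0, zero_pow hN.ne', mul_zero, zero_mul, h2] at h5
    exact mul_ne_zero (pow_ne_zero _ fun h => hzS (h4.2 h)) h3 h5.symm
  have hfr : ∃ᶠ z in 𝓝 y, f z ∉ S := by
    intro hcon
    apply hne
    filter_upwards [hcon, heS] with z h1 h2
    exact h2.1 (not_not.1 h1)
  have hJinj : Function.Injective J := by
    obtain ⟨z, hz1, hz2⟩ := (hfr.and_eventually hmJ).exists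
    exact mnr_not_inj _ (hz2 hz1)
  -- the chart representation
  set c₀ : Cm n := φ y with hc₀
  have hsc : φ.symm c₀ = y := φ.left_inv hy
  have hφs : ContinuousAt φ.symm c₀ := φ.continuousAt_symm (φ.map_source hy)
  have hφst : Tendsto φ.symm (𝓝 c₀) (𝓝 y) := by
    have := hφs.tendsto
    rwa [hsc] at this
  have hψf : ∀ z, f z ∈ ψ.source → HolV (Cm n) (fun z => ψ (f z)) z := fun z hz =>
    HolV.comp (h := (ψ : Y → Cm p)) (HolV.chart hz) (hf z)
  set Fh : Cm n → Cm p := (fun z => ψ (f z)) ∘ φ.symm with hFh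
  have hF : ContDiffAt ℂ ω Fh c₀ := (hψf y hys).rep hy
  have hFd : ContDiffAt ℂ ω (fderiv ℂ Fh) c₀ := hF.fderiv_right (by simp)
  set eh : Cm n → ℂ := e ∘ φ.symm with heh
  have heh' : AnalyticAt ℂ eh c₀ := (he.rep hy).analyticAt
  have htgt : ∀ᶠ c in 𝓝 c₀, c ∈ φ.target := φ.open_target.mem_nhds (φ.map_source hy)
  have hehne : ¬ ∀ᶠ c in 𝓝 c₀, eh c = 0 := by
    intro h
    apply hne
    filter_upwards [(φ.continuousAt hy).eventually h, φ.open_source.mem_nhds hy] with z h1 h2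
    have h3 : e (φ.symm (φ z)) = 0 := h1
    rwa [φ.left_inv h2] at h3
  -- the minors in the charts
  have hdAF : ∀ᶠ c in 𝓝 c₀, ∀ κ, mnr (fderiv ℂ Fh c) κ =
      (dV (Cm p) (ψ : Y → Cm p) (f (φ.symm c))).det * mnr (dA (n := n) (p := p) f z₀ (φ.symm c)) κ := by
    filter_upwards [htgt, hφst.eventually hfs] with c h1 h2 κ
    have h3 := fderiv_dA hf (z₀ := z₀) (z := φ.symm c) (y₀ := f y) (φ.map_target h1) h2
    rw [φ.right_inv h1] at h3
    rw [show fderiv ℂ Fh c = _ from h3, mnr_comp]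
  have hdet0 : ∀ᶠ c in 𝓝 c₀, (dV (Cm p) (ψ : Y → Cm p) (f (φ.symm c))).det ≠ 0 := by
    filter_upwards [hφst.eventually hfs] with c h2
    exact jac_chart_ne_zero h2
  have hrat : ∀ᶠ c in 𝓝 c₀, ∀ κ, mnr (fderiv ℂ Fh c) κ / mnr (fderiv ℂ Fh c) J =
      mnr (dA (n := n) (p := p) f z₀ (φ.symm c)) κ / mnr (dA (n := n) (p := p) f z₀ (φ.symm c)) J := by
    filter_upwards [hdAF, hdet0] with c h1 h2 κ
    rw [h1, h1, mul_div_mul_left _ _ h2]
  have hmJ' : ∀ᶠ c in 𝓝 c₀, eh c ≠ 0 → mnr (fderiv ℂ Fh c) J ≠ 0 := by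
    filter_upwards [hdAF, hdet0, hφst.eventually hmJ, hφst.eventually heS] with c h1 h2 h3 h4 h5
    rw [h1]
    exact mul_ne_zero h2 (h3 fun h => h5 (h4.1 h))
  -- the ratios are bounded
  have hbdd : ∀ κ, ∃ C : ℝ, ∀ᶠ c in 𝓝 c₀, eh c ≠ 0 →
      ‖mnr (fderiv ℂ Fh c) κ / mnr (fderiv ℂ Fh c) J‖ ≤ C := by
    intro κ
    have hq : ∃ C : ℝ, ∀ᶠ z in 𝓝 y, f z ∉ S → ‖b κ z / b J z‖ ≤ C := by
      by_cases hκ : ∀ᶠ z in 𝓝 y, b κ z = 0
      · refine ⟨0, ?_⟩
        filter_upwards [hκ] with z hz _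
        rw [hz, zero_div, norm_zero]
      · obtain ⟨huκ, huκ0, hbκ⟩ := hku κ hκ
        have hle := hJmin κ hκ
        have hcont : ContinuousAt (fun z => e z ^ (k κ - k J) * u κ z / u J z) y :=
          ((he.continuousAt.pow _).mul huκ.continuousAt).div huJ.continuousAt huJ0
        refine ⟨‖e y ^ (k κ - k J) * u κ y / u J y‖ + 1, ?_⟩
        filter_upwards [hbκ, hbJ, hcont.norm.eventually_lt_const (lt_add_one _), heS,
          huJ.continuousAt.eventually_ne huJ0] with z h1 h2 h3 h4 h5 hzS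
        have he0 : e z ≠ 0 := fun h => hzS (h4.2 h)
        have h6 : b κ z / b J z = e z ^ (k κ - k J) * u κ z / u J z := by
          rw [h1, h2, div_eq_div_iff (mul_ne_zero (pow_ne_zero _ he0) h5) h5]
          have h7 : e z ^ k κ = e z ^ (k κ - k J) * e z ^ k J := by
            rw [← pow_add, Nat.sub_add_cancel hle]
          rw [h7]
          ring
        rw [h6]
        exact h3.le
    obtain ⟨C, hC⟩ := hq
    refine ⟨max 1 C, ?_⟩
    filter_upwards [hrat, hφst.eventually hC, hφst.eventually hbev, hφst.eventually heS,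
      hφst.eventually hmJ, hφst.eventually hbJ,
      hφst.eventually (huJ.continuousAt.eventually_ne huJ0)] with c h1 h2 h3 h4 h5 h6 h7 hc
    have hzS : f (φ.symm c) ∉ S := fun h => hc (h4.1 h)
    rw [h1 κ]
    set A := dA (n := n) (p := p) f z₀ (φ.symm c) with hA
    have h8 := h3 hzS κ
    have h9 := h3 hzS J
    have h10 : b J (φ.symm c) ≠ 0 := by
      rw [h6]
      exact mul_ne_zero (pow_ne_zero _ hc) h7
    have h11 : b κ (φ.symm c) / b J (φ.symm c) = (mnr A κ / mnr A J) ^ N := by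
      rw [div_pow, div_eq_div_iff h10 (pow_ne_zero _ (h5 hzS)), ← h8, ← h9]
      ring
    have h12 := h2 hzS
    rw [h11, norm_pow] at h12
    by_contra hcon
    push Not at hcon
    have h13 : 1 ≤ ‖mnr A κ / mnr A J‖ := (le_max_left _ _).trans hcon.le
    have h14 := le_self_pow₀ h13 hN.ne'
    exact absurd (h14.trans h12) (not_le.2 ((le_max_right _ _).trans_lt hcon))
  have hHex : ∀ κ, ∃ H : Cm n → ℂ, AnalyticAt ℂ H c₀ ∧ ∀ᶠ c in 𝓝 c₀, eh c ≠ 0 →
      mnr (fderiv ℂ Fh c) κ / mnr (fderiv ℂ Fh c) J = H c := by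
    intro κ
    obtain ⟨C, hC⟩ := hbdd κ
    refine extend_off heh' hehne ?_ ?_
    · have h1 : ∀ᶠ c in 𝓝 c₀, ContDiffAt ℂ ω (fderiv ℂ Fh) c := hFd.eventually (by simp)
      filter_upwards [h1, hmJ'] with c h2 h3 hc
      have h4 : DifferentiableAt ℂ (fderiv ℂ Fh) c := h2.differentiableAt (by simp)
      have h5 : ∀ κ, DifferentiableAt ℂ (fun c => mnr (fderiv ℂ Fh c) κ) c := fun κ =>
        DifferentiableAt.comp (g := fun A : Cm n →L[ℂ] Cm p => mnr A κ) c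
          (((mnr_cont κ).contDiffAt).differentiableAt (by simp)) h4
      simp only [div_eq_mul_inv]
      exact (h5 κ).mul ((h5 J).inv (h3 hc))
    · filter_upwards [hC.eventually_nhds] with c hc hc0
      exact subset_closure ⟨hc0, C, hc⟩
  choose H hH hHe using hHex
  -- the distribution
  obtain ⟨hlin1, hlin2⟩ := hlin n p E₀ e₀
  obtain ⟨P, s, hPs, hPJ, hPA⟩ := hlin2 J hJinj
  set Mb : Fin p → Fin n → (E₀ →L[ℂ] Cm n) := fun b k =>
    ((ContinuousLinearMap.proj k : Cm n →L[ℂ] ℂ).comp s).smulRight (Pi.single (J b) 1) with hMb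
  set L : Cm n → E₀ →L[ℂ] Cm n := fun c => s - ∑ b, ∑ k, H (Function.update J b k) c • Mb b k
    with hL
  have hLa : AnalyticAt ℂ L c₀ := by
    refine analyticAt_const.sub ?_
    refine Finset.analyticAt_fun_sum _ fun b _ => ?_
    refine Finset.analyticAt_fun_sum _ fun k _ => ?_
    exact (hH _).smul analyticAt_const
  have hLv : ∀ c v, L c v = s v - ∑ b, (∑ k, s v k * H (Function.update J b k) c) •
      (Pi.single (J b) 1 : Cm n) := by
    intro c v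
    simp only [hL, hMb, sub_apply, sum_apply, smul_apply, ContinuousLinearMap.smulRight_apply,
      ContinuousLinearMap.comp_apply, ContinuousLinearMap.proj_apply]
    congr 1
    refine Finset.sum_congr rfl fun b _ => ?_
    rw [Finset.sum_smul]
    refine Finset.sum_congr rfl fun k _ => ?_
    rw [smul_smul, mul_comm]
  have hPL : ∀ c, P.comp (L c) = ContinuousLinearMap.id ℂ E₀ := by
    intro c
    refine ContinuousLinearMap.ext fun v => ?_
    rw [ContinuousLinearMap.comp_apply, hLv, map_sub, map_sum, hPs]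
    simp only [map_smul, hPJ, smul_zero, Finset.sum_const_zero, sub_zero]
    rfl
  have hHall : ∀ᶠ c in 𝓝 c₀, ∀ κ, eh c ≠ 0 →
      mnr (fderiv ℂ Fh c) κ / mnr (fderiv ℂ Fh c) J = H κ c := Filter.eventually_all.2 hHe
  have hAL : ∀ᶠ c in 𝓝 c₀, eh c ≠ 0 → (fderiv ℂ Fh c).comp (L c) = 0 := by
    filter_upwards [hHall, hmJ'] with c h1 h2 hc
    refine ContinuousLinearMap.ext fun v => ?_
    rw [ContinuousLinearMap.comp_apply, hLv, map_sub, map_sum, (hPA _ (h2 hc)).2 v]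
    simp only [map_smul]
    rw [sub_eq_zero.2]
    · rfl
    · refine Finset.sum_congr rfl fun b _ => ?_
      congr 1
      refine Finset.sum_congr rfl fun k _ => ?_
      rw [h1 _ hc]
  have hAL' : ∀ᶠ c in 𝓝 c₀, (fderiv ℂ Fh c).comp (L c) = 0 := by
    have hfr' : ∀ᶠ c in 𝓝 c₀, ∃ᶠ c' in 𝓝 c, eh c' ≠ 0 := by
      filter_upwards [hφst.eventually (ne_frequently he hne), htgt] with c h1 h2
      have h3 : φ.symm c ∈ φ.source := φ.map_target h2
      have h4 := h1.and_eventually (φ.open_source.mem_nhds h3)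
      have h5 : Tendsto φ (𝓝 (φ.symm c)) (𝓝 c) := by
        have := (φ.continuousAt h3).tendsto
        rwa [φ.right_inv h2] at this
      refine h5.frequently (h4.mono ?_)
      rintro z ⟨h6, h7⟩
      show e (φ.symm (φ z)) ≠ 0
      rwa [φ.left_inv h7]
    have hcL : ∀ᶠ c in 𝓝 c₀, ContinuousAt L c := by
      filter_upwards [hLa.eventually_analyticAt] with c hc using hc.continuousAt
    have hcF : ∀ᶠ c in 𝓝 c₀, ContinuousAt (fderiv ℂ Fh) c := by
      filter_upwards [hFd.eventually (by simp)] with c hc using hc.continuousAt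
    filter_upwards [hfr', hAL.eventually_nhds, hcL, hcF] with c h1 h2 h3 h4
    by_contra hcon
    have h5 : ContinuousAt (fun c => (fderiv ℂ Fh c).comp (L c)) c := h4.clm_comp h3
    obtain ⟨c', h6, h7, h8⟩ := (h1.and_eventually (h2.and (h5.eventually_ne hcon))).exists
    exact h8 (h7 h6)
  -- the slices
  set W : Set (Cm n) := φ.target ∩ {c | f (φ.symm c) ∈ ψ.source ∧ (f (φ.symm c) ∉ S →
    mnr (fderiv ℂ Fh c) J ≠ 0 ∧ ∀ D ∈ 𝒜, φ.symm c ∉ D)} with hWd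
  have hW : W ∈ 𝓝 c₀ := by
    refine Filter.inter_mem htgt ?_
    filter_upwards [hφst.eventually hfs, hmJ', hφst.eventually heS, hφst.eventually hav] with
      c h1 h2 h3 h4
    exact ⟨h1, fun h5 => ⟨h2 fun h6 => h5 (h3.2 h6), h4 h5⟩⟩
  obtain ⟨r, hr, hslc⟩ := hsl (Cm n) (Cm p) E₀ e₀ Fh c₀ hF.analyticAt L hLa P
    (Eventually.of_forall hPL) hAL' W hW
  obtain ⟨M, hM⟩ := hbd r hr
  obtain ⟨cκ, hcκ⟩ := hlin1 P
  have haev : ∀ᶠ z in 𝓝 y, ∀ I, ‖a I z‖ < ‖a I y‖ + 1 := by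
    refine Filter.eventually_all.2 fun I => ?_
    exact (ha I).continuousAt.norm.eventually_lt_const (lt_add_one _)
  refine ⟨|M| * ∑ I : Fin N → Fin p → Fin n, ‖∏ r, cκ (I r)‖ * (‖a I y‖ + 1), ?_⟩
  filter_upwards [φ.open_source.mem_nhds hy, hfs, (φ.continuousAt hy).eventually hslc, hev,
    haev] with z hz hfz hzc hzev hza hzS
  set c : Cm n := φ z with hc
  have hscz : φ.symm c = z := φ.left_inv hz
  have hFc : Fh c = ψ (f z) := by
    show ψ (f (φ.symm c)) = ψ (f z)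
    rw [hscz]
  have hfib : ∀ c' ∈ W, Fh c' = Fh c → f (φ.symm c') = f z := by
    intro c' hc' h
    rw [hFc] at h
    exact ψ.injOn hc'.2.1 hfz h
  obtain ⟨Q, hQ1, hQ⟩ := hzc (fun c' hc' h => (hPA _ (hc'.2.2 (by
    rw [hfib c' hc' h]; exact hzS)).1).1)
  have hQtgt : ∀ v ∈ ball (P c) r, Q v ∈ φ.target := fun v hv => (hQ v hv).2.1.1
  have hQf : ∀ v ∈ ball (P c) r, f (φ.symm (Q v)) = f z := fun v hv =>
    hfib _ (hQ v hv).2.1 (hQ v hv).2.2.1
  set Qz : E₀ → Z := fun v => φ.symm (Q v) with hQz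
  have hQz1 : Qz (P c) = z := by
    show φ.symm (Q (P c)) = z
    rw [hQ1, hscz]
  have hQhol : ∀ v ∈ ball (P c) r, ContMDiffAt 𝓘(ℂ, E₀) 𝓘(ℂ, Cm n) ω Qz v := by
    intro v hv
    have g1 : ContMDiffAt 𝓘(ℂ, Cm n) 𝓘(ℂ, Cm n) ω φ.symm (Q v) :=
      contMDiffAt_symm_of_mem_maximalAtlas hmem (hQtgt v hv)
    exact ContMDiffAt.comp (g := φ.symm) (f := Q) v g1 (hQ v hv).1.contMDiffAt
  have hφR : ∀ v ∈ ball (P c) r, φ (Qz v) = Q v := fun v hv => φ.right_inv (hQtgt v hv)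
  have hQinj : InjOn Qz (ball (P c) r) := by
    intro v hv v' hv' hvv
    have g2 : Q v = Q v' := by
      rw [← hφR v hv, ← hφR v' hv']
      exact congrArg φ hvv
    rw [← (hQ v hv).2.2.2, ← (hQ v' hv').2.2.2, g2]
  have hv₁ : P c ∈ ball (P c) r := mem_ball_self hr
  -- the left inverse of the derivative of the slice
  set P' : Cm n →L[ℂ] E₀ := P.comp (dV (Cm n) (φ : Z → Cm n) z) with hP'
  obtain ⟨D, hD⟩ : ∃ D : E₀ →L[ℂ] Cm n, D = mfderiv 𝓘(ℂ, E₀) 𝓘(ℂ, Cm n) Qz (P c) := ⟨_, rfl⟩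
  have hdQ : P'.comp D = ContinuousLinearMap.id ℂ E₀ := by
    have g1 : HolV (Cm n) (φ : Z → Cm n) (Qz (P c)) := by
      rw [hQz1]
      exact HolV.chart hz
    have g2 : dV E₀ (fun v => φ (Qz v)) (P c) =
        (dV (Cm n) (φ : Z → Cm n) (Qz (P c))).comp D := by
      have g6 := mfderiv_comp (P c) g1.mdiff ((hQhol _ hv₁).mdifferentiableAt (by simp))
      subst hD
      exact g6
    have g3 : (fun v => P (φ (Qz v))) =ᶠ[𝓝 (P c)] fun v => v := by
      filter_upwards [isOpen_ball.mem_nhds hv₁] with v hv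
      rw [hφR v hv, (hQ v hv).2.2.2]
    have g4 : dV E₀ (fun v => P (φ (Qz v))) (P c) = P.comp (dV E₀ (fun v => φ (Qz v)) (P c)) := by
      have g5 : HolV E₀ (fun v => φ (Qz v)) (P c) :=
        HolV.comp (h := (φ : Z → Cm n)) g1 (hQhol _ hv₁)
      have g6 := dV_comp_contDiff (G := (P : Cm n → E₀)) (v := fun v => φ (Qz v)) (x := P c)
        P.contDiff.contDiffAt g5
      rw [P.fderiv] at g6
      exact g6
    have g5 : dV E₀ (fun v => P (φ (Qz v))) (P c) = ContinuousLinearMap.id ℂ E₀ := by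
      unfold dV
      rw [g3.mfderiv_eq, mfderiv_eq_fderiv]
      exact fderiv_id'
    rw [hP', ContinuousLinearMap.comp_assoc, ← g5, g4, g2, hQz1]
  have key := hM (P c) Qz hQhol hQinj (fun v hv => by
      rw [hQz1]
      exact hQf v hv) (by rw [hQz1]; exact hzS) (fun v hv D hD hQD => by
      refine ((hQ v hv).2.1.2.2 ?_).2 D hD hQD
      rw [hQf v hv]
      exact hzS) P' (by subst hD; exact hdQ)
  rw [hQz1] at key
  have k1 : JP e₀ (dM (Cm n) (Cm p) f z) P' =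
      JP e₀ (dA (n := n) (p := p) f z₀ z) P * jac (Cm n) (φ : Z → Cm n) z := by
    have g1 := JP_comp e₀ (dA (n := n) (p := p) f z₀ z) P (dV (Cm n) (φ : Z → Cm n) z)
    rw [dA_comp hz] at g1
    exact g1
  have k2 : t (f z) * PX z * JP e₀ (dA (n := n) (p := p) f z₀ z) P ^ N =
      ∑ I : Fin N → Fin p → Fin n, (∏ r, cκ (I r)) * a I z := by
    rw [hcκ]
    have g1 : (∑ κ, cκ κ * mnr (dA (n := n) (p := p) f z₀ z) κ) ^ N =
        ∑ I : Fin N → Fin p → Fin n, ∏ r, (cκ (I r) * mnr (dA (n := n) (p := p) f z₀ z) (I r)) := by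
      have g2 := Finset.prod_univ_sum (fun _ : Fin N => (Finset.univ : Finset (Fin p → Fin n)))
        (fun _ κ => cκ κ * mnr (dA (n := n) (p := p) f z₀ z) κ)
      rw [Finset.prod_const, Finset.card_univ, Fintype.card_fin, Fintype.piFinset_univ] at g2
      exact g2
    rw [g1, Finset.mul_sum]
    refine Finset.sum_congr rfl fun I _ => ?_
    rw [← hzev hzS I, minors_eq, Finset.prod_mul_distrib]
    ring
  have k3 : ‖t (f z) * PX z * JP e₀ (dA (n := n) (p := p) f z₀ z) P ^ N‖ ≤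
      ∑ I : Fin N → Fin p → Fin n, ‖∏ r, cκ (I r)‖ * (‖a I y‖ + 1) := by
    rw [k2]
    refine (norm_sum_le _ _).trans (Finset.sum_le_sum fun I _ => ?_)
    rw [norm_mul]
    exact mul_le_mul_of_nonneg_left (hza I).le (norm_nonneg _)
  calc ‖t (f z) * Θ z * PX z‖ = ‖t (f z) * PX z‖ * ‖Θ z‖ := by
        rw [← norm_mul]; congr 1; ring
    _ ≤ ‖t (f z) * PX z‖ * (M * ‖JP e₀ (dM (Cm n) (Cm p) f z) P' ^ N‖) := by gcongr
    _ ≤ ‖t (f z) * PX z‖ * (|M| * ‖JP e₀ (dM (Cm n) (Cm p) f z) P' ^ N‖) := by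
        gcongr
        exact le_abs_self M
    _ = |M| * ‖t (f z) * PX z * JP e₀ (dA (n := n) (p := p) f z₀ z) P ^ N‖ *
          ‖jac (Cm n) (φ : Z → Cm n) z ^ N‖ := by
        have k4 : ‖(JP e₀ (dA (n := n) (p := p) f z₀ z) P * jac (Cm n) (φ : Z → Cm n) z) ^ N‖ =
            ‖JP e₀ (dA (n := n) (p := p) f z₀ z) P ^ N‖ * ‖jac (Cm n) (φ : Z → Cm n) z ^ N‖ := by
          rw [mul_pow, norm_mul]
        have k5 : ‖t (f z) * PX z * JP e₀ (dA (n := n) (p := p) f z₀ z) P ^ N‖ =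
            ‖t (f z) * PX z‖ * ‖JP e₀ (dA (n := n) (p := p) f z₀ z) P ^ N‖ := norm_mul _ _
        rw [k1, k4, k5]
        ring
    _ ≤ |M| * (∑ I : Fin N → Fin p → Fin n, ‖∏ r, cκ (I r)‖ * (‖a I y‖ + 1)) *
          ‖jac (Cm n) (φ : Z → Cm n) z ^ N‖ := by
        gcongr

end

end Vale.Agent.P281.H713.TZ
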