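import Vale.Agent.P281.H713.TZ.Core
import Vale.Agent.P281.H413.TZ.Gen
import Vale.Agent.P281.H342.TZ.Slice
import Vale.Agent.P281.H431.Lin
import Vale.Agent.P281.H498.TZ.PoleZ
import Vale.Agent.P281.H713.MainC
import Vale.Agent.P281.H713.ZH
import Vale.Agent.P281.H713.GNC4

/-! P281, theorem TZ, row Z7: Campana's inequality for fibrations of relative dimension one, for
fibres with maps to tori, and for fibres with forms controlled by periods. -/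

open scoped Manifold ContDiff Topology
open Set Filter Metric Module Vale.Agent.P281 Vale.Agent.P272.K
open Vale.Agent.P281.MF Vale.Agent.P281.ISO Vale.Agent.P281.ELL Vale.Agent.P281.H713

set_option linter.all false

noncomputable section

namespace Vale.Agent.P281.H713.TZ

variable {n p : ℕ} {X Z Y F : Type} [TopologicalSpace X] [T2Space X] [ConnectedSpace X]
  [ChartedSpace (Cm n) X] [IsManifold 𝓘(ℂ, Cm n) ω X]
  [TopologicalSpace Z] [ChartedSpace (Cm n) Z]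
  [IsManifold 𝓘(ℂ, Cm n) ω Z] [TopologicalSpace Y] [ChartedSpace (Cm p) Y]
  [IsManifold 𝓘(ℂ, Cm p) ω Y]
variable {E₀ : Type} [NormedAddCommGroup E₀] [NormedSpace ℂ E₀] [FiniteDimensional ℂ E₀]
  [TopologicalSpace F] [ChartedSpace E₀ F] [IsManifold 𝓘(ℂ, E₀) ω F]

theorem kodGE_all {E₁ : Type} [NormedAddCommGroup E₁] [NormedSpace ℂ E₁]
    [FiniteDimensional ℂ E₁] {j : Z → X} (hj : J.IsBigOpen (Cm n) j) {f : Z → Y}
    (hf : ContMDiff 𝓘(ℂ, Cm n) 𝓘(ℂ, Cm p) ω f)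
    {𝒢 : Set (Set Y)} (h𝒢f : 𝒢.Finite) (h𝒢p : ∀ G ∈ 𝒢, J.IsPrime (Cm p) G)
    (hsub : ∀ x, f x ∉ ⋃₀ 𝒢 → Function.Surjective (dM (Cm n) (Cm p) f x))
    (e₀ : Cm n ≃L[ℂ] (Cm p × E₁))
    {Δ : Set X → ℝ} (hsnc : J.IsSNC (Cm n) Δ)
    {Δ' : Set Z → ℝ} (hsnc' : J.IsSNC (Cm n) Δ') (hΔ : J.IsRestriction j Δ Δ') {r : ℕ}
    (hform : ∀ y, y ∉ ⋃₀ 𝒢 → HasForms f (⋃₀ 𝒢) e₀ Δ' r y) {j₂ : ℕ}
    (h₂ : KodFGE n p Δ j f j₂) :
    KodGE (Cm n) (fun (D : Set X) z g => IsLocalEq (Cm n) D g z) Δ (j₂ + r) :=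
  kodGE_T H413.TZ.genPart H342.TZ.slicePart H431.linPart H498.poleZPart hj hf h𝒢f h𝒢p hsub e₀
    hsnc hsnc' hΔ hform h₂

theorem fr (n : ℕ) : finrank ℂ (Cm n) = n := Module.finrank_fin_fun ℂ

/-- **fibres with nondegenerate maps to tori** -/
theorem main_albT {d : ℕ} (hd : 0 < d) (hn : n = p + d) (hE₀ : finrank ℂ E₀ = d)
    (j : Z → X) (hj : J.IsBigOpen (Cm n) j) (f : Z → Y)
    (hf : ContMDiff 𝓘(ℂ, Cm n) 𝓘(ℂ, Cm p) ω f)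
    (𝒢 : Set (Set Y)) (h𝒢f : 𝒢.Finite) (h𝒢p : ∀ G ∈ 𝒢, J.IsPrime (Cm p) G)
    {V : Type} [NormedAddCommGroup V] [InnerProductSpace ℂ V] [FiniteDimensional ℂ V]
    {q : ℕ} {Q : (Fin q → ℝ) → (Fin q → ℝ) → ℝ} {ι : Type} (U : ι → Set Y)
    (π : ι → Y → ((Fin q → ℝ) ≃L[ℝ] V)) (α : ι → Z → V)
    (hC : IsAlbaneseFamily (Cm n) (Cm p) d f (⋃₀ 𝒢) Q U π α)
    (Δ : Set X → ℝ) (hsnc : J.IsSNC (Cm n) Δ) (Δ' : Set Z → ℝ) (hsnc' : J.IsSNC (Cm n) Δ')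
    (hΔ : J.IsRestriction j Δ Δ') (ΔF : Set F → ℝ) :
    J.kod E₀ (fun (C : Set F) p g => J.IsLocalEq E₀ C g p) ΔF +
      TL.kodF (n := n) (p := p) Δ j f ≤
      J.kod (Cm n) (fun (D : Set X) z g => J.IsLocalEq (Cm n) D g z) Δ := by
  have hE : finrank ℂ (Cm n) = finrank ℂ (Cm p) + d := by rw [fr, fr, hn]
  rw [JB.kod_eq, JB.kod_eq]
  let e₀ : Cm n ≃L[ℂ] (Cm p × (Fin d → ℂ)) := ContinuousLinearEquiv.ofFinrankEq (by
    rw [hE, Module.finrank_prod, Module.finrank_fin_fun, Module.finrank_fin_fun])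
  have hs' := JB.snc hsnc'
  refine kodF_add_le fun j₁ j₂ h₁ h₂ => ?_
  have hj₁ : j₁ ≤ d := by
    have := kodGE_le h₁
    rwa [hE₀] at this
  have hmain := kodGE_all (r := d) hj hf h𝒢f h𝒢p (fun x hx => by
      obtain ⟨ζ, -, h1⟩ := hC.coord x hx
      exact surj_of_coord (E₀ := Fin d → ℂ) (by rw [hE, Module.finrank_fin_fun, Module.finrank_fin_fun]) h1)
    e₀ hsnc hsnc' hΔ
    (fun y hy => hasForms_alb hC hd (fun x => hf x) e₀ (fun D => (snc01 hs' D).1) hy) h₂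
  exact kodGE_le_of hmain (by omega)

/-- **fibres with forms controlled by periods** -/
theorem main_periodsT {N : ℕ} (hN : 0 < N) {d : ℕ} (hn : n = p + d)
    (j : Z → X) (hj : J.IsBigOpen (Cm n) j) (f : Z → Y)
    (hf : ContMDiff 𝓘(ℂ, Cm n) 𝓘(ℂ, Cm p) ω f)
    (𝒢 : Set (Set Y)) (h𝒢f : 𝒢.Finite) (h𝒢p : ∀ G ∈ 𝒢, J.IsPrime (Cm p) G)
    {V : Type} [NormedAddCommGroup V] [InnerProductSpace ℂ V] [FiniteDimensional ℂ V]
    {q m b t r s : ℕ}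
    {Q : (Fin q → ℝ) → (Fin q → ℝ) → ℝ} {B : Fin b → Matrix (Fin m) (Fin m) ℝ}
    {w : Fin b → Fin m → ℝ} {e : Fin b → ℕ} (κ : Set Z → ℕ) {ι : Type} (U : ι → Set Y)
    (π : ι → Y → ((Fin q → ℝ) ≃L[ℝ] V)) (P : ι → Y → Fin b → Fin m → ℂ)
    (η : ι → Fin t → Z → (Fin d → Cm n) → ℂ)
    (hC : IsPeriodForms (Cm n) (Cm p) f (⋃₀ 𝒢) r N κ Q s B w e U π P η)
    (Δ : Set X → ℝ) (hsnc : J.IsSNC (Cm n) Δ) (Δ' : Set Z → ℝ) (hsnc' : J.IsSNC (Cm n) Δ')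
    (hΔ : J.IsRestriction j Δ Δ') (hκ : ∀ D, (κ D : ℝ) ≤ N * Δ' D) (ΔF : Set F → ℝ)
    (hF : J.kod E₀ (fun (C : Set F) p g => J.IsLocalEq E₀ C g p) ΔF ≤ (r : WithBot ℕ∞)) :
    J.kod E₀ (fun (C : Set F) p g => J.IsLocalEq E₀ C g p) ΔF +
      TL.kodF (n := n) (p := p) Δ j f ≤
      J.kod (Cm n) (fun (D : Set X) z g => J.IsLocalEq (Cm n) D g z) Δ := by
  have hE : finrank ℂ (Cm n) = finrank ℂ (Cm p) + d := by rw [fr, fr, hn]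
  rw [JB.kod_eq] at hF
  rw [JB.kod_eq, JB.kod_eq]
  let e₀ : Cm n ≃L[ℂ] (Cm p × (Fin d → ℂ)) := ContinuousLinearEquiv.ofFinrankEq (by
    rw [hE, Module.finrank_prod, Module.finrank_fin_fun, Module.finrank_fin_fun])
  have hs' := JB.snc hsnc'
  have hne : ∀ D, κ D ≠ 0 → Δ' D ≠ 0 := by
    intro D hD h0
    have h1 := hκ D
    rw [h0, mul_zero] at h1
    have h2 : (0 : ℝ) < κ D := by exact_mod_cast Nat.pos_of_ne_zero hD
    linarith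
  have hfin : {D | κ D ≠ 0}.Finite := hs'.finite.subset fun D hD => hne D hD
  refine kodF_add_le fun j₁ j₂ h₁ h₂ => ?_
  have hj₁ : j₁ ≤ r := le_of_kod_le hF h₁
  have hmain := kodGE_all (r := r) hj hf h𝒢f h𝒢p (fun x hx => by
      obtain ⟨ζ, hζ, hinj⟩ := hC.chart x hx
      have hζ : ∀ l, HolV (Cm n) (ζ l) x := hζ
      exact surj_of_coord (E₀ := Fin d → ℂ) (P := dV (Cm n) (vec ζ) x)
        (by rw [hE, Module.finrank_fin_fun, Module.finrank_fin_fun]) fun ξ h1 h2 => hinj ξ h1 fun l => by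
          have h3 := dV_vec hζ ξ l
          rw [h2] at h3
          exact h3.symm)
    e₀ hsnc hsnc' hΔ
    (fun y hy => hasForms_periods hC (fun x => hf x) e₀ hN hfin
      (fun D hD => hs'.prime D (hne D hD)) hκ hy) h₂
  exact kodGE_le_of hmain (by omega)

/-- **fibrations of relative dimension one** -/
theorem main_oneT (hn : n = p + 1) (hE₀ : finrank ℂ E₀ = 1)
    (j : Z → X) (hj : J.IsBigOpen (Cm n) j) (f : Z → Y)
    (hf : ContMDiff 𝓘(ℂ, Cm n) 𝓘(ℂ, Cm p) ω f)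
    (𝒢 : Set (Set Y)) (h𝒢f : 𝒢.Finite) (h𝒢p : ∀ G ∈ 𝒢, J.IsPrime (Cm p) G)
    (Δ : Set X → ℝ) (hsnc : J.IsSNC (Cm n) Δ) (Δ' : Set Z → ℝ) (hsnc' : J.IsSNC (Cm n) Δ')
    (hΔ : J.IsRestriction j Δ Δ')
    (hC : IsFamilyOfCurves (Cm n) (Cm p) f (⋃₀ 𝒢) Δ')
    [CompactSpace F] [PreconnectedSpace F] (i : F → Z)
    (hi : ContMDiff 𝓘(ℂ, E₀) 𝓘(ℂ, Cm n) ω i)
    (hi₃ : ∀ p, Function.Injective (mfderiv 𝓘(ℂ, E₀) 𝓘(ℂ, Cm n) i p)) {y : Y}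
    (hy : y ∉ ⋃₀ 𝒢) (hfi : ∀ p, f (i p) = y) :
    J.kod E₀ (fun (D : Set Z) p g => ∃ e, J.IsLocalEq (Cm n) D e (i p) ∧
        ∀ᶠ q in 𝓝 p, g q = e (i q)) Δ' +
      TL.kodF (n := n) (p := p) Δ j f ≤
      J.kod (Cm n) (fun (D : Set X) z g => J.IsLocalEq (Cm n) D g z) Δ := by
  have hE : finrank ℂ (Cm n) = finrank ℂ (Cm p) + 1 := by rw [fr, fr, hn]
  rw [JB.kod_eq, JB.kod_eq]
  let e₀ : Cm n ≃L[ℂ] (Cm p × ℂ) := ContinuousLinearEquiv.ofFinrankEq (by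
    rw [hE, Module.finrank_prod, Module.finrank_self])
  have hs' := JB.snc hsnc'
  have hfh : ∀ x, HolM (Cm n) (Cm p) f x := fun x => hf x
  have hih : ∀ p, HolM E₀ (Cm n) i p := fun p => hi p
  have hΔ0 : ∀ D, 0 ≤ Δ' D := fun D => (snc01 hs' D).1
  have h𝒲f : (horizontal f (⋃₀ 𝒢) Δ').Finite := hs'.finite.subset fun D hD => hD.1
  have h𝒲p : ∀ D ∈ horizontal f (⋃₀ 𝒢) Δ', IsPrimeDivisor (Cm n) D := fun D hD =>
    hs'.prime D hD.1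
  have h𝒲 : ∀ D, Δ' D ≠ 0 → D ∈ horizontal f (⋃₀ 𝒢) Δ' ∨ D ⊆ f ⁻¹' (⋃₀ 𝒢) := by
    intro D hD
    by_cases h1 : D ⊆ f ⁻¹' (⋃₀ 𝒢)
    · exact Or.inr h1
    · exact Or.inl ⟨hD, h1⟩
  have hpos : ∀ D ∈ horizontal f (⋃₀ 𝒢) Δ', 0 < Δ' D := fun D hD =>
    lt_of_le_of_ne (hΔ0 D) hD.1.symm
  refine kodF_add_le fun j₁ j₂ h₁ h₂ => ?_
  have hj₁ : j₁ ≤ 1 := by
    have := kodGE_le h₁
    rwa [hE₀] at this
  have hfin : KodGE (Cm n) (fun (D : Set X) z g => IsLocalEq (Cm n) D g z) Δ (j₂ + 1) →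
      KodGE (Cm n) (fun (D : Set X) z g => IsLocalEq (Cm n) D g z) Δ (j₁ + j₂) := by
    intro hmain
    rcases Nat.eq_zero_or_pos j₁ with h0 | h0
    · rw [h0, zero_add]
      exact kodGE_pred' hmain
    · have h1 : j₁ = 1 := by omega
      rw [h1, add_comm]
      exact hmain
  rcases hC with hC | hC | hC
  · obtain ⟨g, m, Q, ι, U, π, α, hg, hC⟩ := hC
    refine hfin (kodGE_all (r := 1) hj hf h𝒢f h𝒢p (fun x hx => ?_)
      e₀ hsnc hsnc' hΔ (fun y hy => hasForms_curve hC ?_ hfh e₀ hΔ0 hy) h₂)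
    · obtain ⟨ζ, -, h1⟩ := hC.coord x hx
      exact surj_of_coord (E₀ := ℂ) (by rw [hE, Module.finrank_self]) h1
    · rw [finrank_euclideanSpace_fin]
      exact hg
  · obtain ⟨m, d, Q, ι, U, π, u, P, hC⟩ := hC
    have hT := hC.toIsTorusFamily
    have hn : 0 < m := by
      obtain ⟨a₀, ha₀⟩ := (hT.cover y).1 hy
      exact pos_of_period (π a₀ y) (by rw [Module.finrank_self]; exact one_pos)
    have hsub : ∀ x, f x ∉ ⋃₀ 𝒢 → Function.Surjective (dM (Cm n) (Cm p) f x) := by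
      intro x hx
      obtain ⟨a, ha⟩ := (hT.cover _).1 hx
      obtain ⟨ζ, -, -, h1⟩ := hT.coord a x ha
      exact surj_of_coord (E₀ := ℂ) (by rw [hE, Module.finrank_self])
        (P := (mfderiv 𝓘(ℂ, Cm n) 𝓘(ℂ, ℂ) ζ x : Cm n →L[ℂ] ℂ)) h1
    rcases Nat.eq_zero_or_pos d with hd | hd
    · have h3 : ∀ D, Δ' D ≠ 0 → ∀ q, i q ∉ D := by
        intro D hD q hq
        have hfq : f (i q) ∉ ⋃₀ 𝒢 := by rw [hfi]; exact hy
        obtain ⟨a, ha⟩ := (hT.cover _).1 hfq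
        rcases h𝒲 D hD with h1 | h1
        · obtain ⟨l, -⟩ := hC.marked a (i q) ha D h1 hq
          rw [hd] at l
          exact l.elim0
        · exact hfq (h1 hq)
      have hj0 : j₁ = 0 := kodF_ell hE₀ hT hfh hy hih hfi hi₃ h3 h₁
      rw [hj0, zero_add]
      exact kodGE_all (r := 0) hj hf h𝒢f h𝒢p hsub e₀ hsnc hsnc' hΔ
        (fun y hy => hasForms_torus hn hT hfh e₀ hΔ0 hy) h₂
    · obtain ⟨δ, hδ, hδ'⟩ : ∃ δ : ℝ, 0 < δ ∧ ∀ D ∈ horizontal f (⋃₀ 𝒢) Δ', δ ≤ Δ' D := by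
        rcases (horizontal f (⋃₀ 𝒢) Δ').eq_empty_or_nonempty with h0 | h0
        · exact ⟨1, one_pos, fun D hD => by rw [h0] at hD; exact absurd hD (Set.notMem_empty D)⟩
        · obtain ⟨D₀, hD₀, hmin⟩ := h𝒲f.exists_minimalFor Δ' _ h0
          refine ⟨Δ' D₀, hpos D₀ hD₀, fun D hD => ?_⟩
          rcases le_total (Δ' D₀) (Δ' D) with h1 | h1
          · exact h1
          · exact hmin hD h1
      exact hfin (kodGE_all (r := 1) hj hf h𝒢f h𝒢p hsub e₀ hsnc hsnc' hΔ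
        (fun y hy => hasForms_ell hd hC h𝒲f h𝒲p hfh e₀ hΔ0 hδ hδ' hy) h₂)
  · obtain ⟨d, δ, ι, U, P, c, hC⟩ := hC
    have hsub := sub_line hE hC
    have hq : ∀ l, ∃ q : ℚ, δ l = q := by
      intro l
      obtain ⟨D, hD, hDl⟩ := weight_eq hC hy l
      obtain ⟨q, h1, -⟩ := hs'.rational D
      exact ⟨q, by rw [← hDl, h1]⟩
    have h0 : ∀ l, 0 < δ l := by
      intro l
      obtain ⟨D, hD, hDl⟩ := weight_eq hC hy l
      rw [← hDl]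
      exact hpos D hD
    have h1 : ∀ l, δ l ≤ 1 := by
      intro l
      obtain ⟨D, hD, hDl⟩ := weight_eq hC hy l
      rw [← hDl]
      exact (snc01 hs' D).2
    rcases le_or_gt (∑ l, δ l) 2 with hs | hs
    · obtain ⟨hs2, hj0⟩ := kodF_line hE₀ hfh hC hih hy hfi hi₃ h𝒲 hs h₁
      rw [hj0, zero_add]
      exact kodGE_all (r := 0) hj hf h𝒢f h𝒢p hsub e₀ hsnc hsnc' hΔ
        (fun y hy => hasForms_line₀ hfh hC h𝒲f h𝒲p e₀ hΔ0 hq (fun l => (h0 l).le) h1 hs2 hy) h₂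
    · exact hfin (kodGE_all (r := 1) hj hf h𝒢f h𝒢p hsub e₀ hsnc hsnc' hΔ
        (fun y hy => hasForms_line₁ hfh hC h𝒲f h𝒲p e₀ hΔ0 hq h0 h1 hs hy) h₂)

end Vale.Agent.P281.H713.TZ
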