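import Vale.Agent.P281.H713.TZ.Lift
import Vale.Agent.P281.H949.TL.Thin

/-! P281, theorem TZ, row Z6: preparations. -/

open scoped Manifold ContDiff Topology
open Set Filter Metric Vale.Agent.P281 Vale.Agent.P272.K
open Vale.Agent.P281.MF Vale.Agent.P281.ISO Vale.Agent.P281.ELL Vale.Agent.P281.H713

set_option linter.all false

noncomputable section

namespace Vale.Agent.P281.H713.TZ

variable {n p : ℕ} {Z Y : Type} [TopologicalSpace Z] [ChartedSpace (Cm n) Z]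
  [IsManifold 𝓘(ℂ, Cm n) ω Z] [TopologicalSpace Y] [ChartedSpace (Cm p) Y]
  [IsManifold 𝓘(ℂ, Cm p) ω Y]
variable {E₀ : Type} [NormedAddCommGroup E₀] [NormedSpace ℂ E₀] [FiniteDimensional ℂ E₀]

theorem relForm_sub {f : Z → Y} {S S' : Set Y} (hSS : S ⊆ S') {e₀ : Cm n ≃L[ℂ] (Cm p × E₀)}
    {N : ℕ} {𝒜 : Set (Set Z)} {κ₀ : Set Z → ℕ} {Θ : Z → ℂ} (h : RelForm f S e₀ N 𝒜 κ₀ Θ) :
    RelForm f S' e₀ N 𝒜 κ₀ Θ where
  hol := fun x₀ x y₀ hx => h.hol x₀ x y₀ fun h1 => hx (hSS h1)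
  bound := by
    intro r hr
    obtain ⟨C, hC⟩ := h.bound r hr
    exact ⟨C, fun v₀ Q h1 h2 h3 h4 h5 P h6 => hC v₀ Q h1 h2 h3 (fun h7 => h4 (hSS h7)) h5 P h6⟩

theorem isSection_mono {m : ℕ} {k k' : Set Y → ℕ} {s : Y → ℂ} (hk : ∀ D, k D ≤ k' D)
    (hfin : {D | k' D ≠ 0}.Finite) (hpr : ∀ D, k' D ≠ 0 → IsPrimeDivisor (Cm p) D)
    (hs : IsSection (Cm p) (fun (D : Set Y) z g => IsLocalEq (Cm p) D g z) m k s) :
    IsSection (Cm p) (fun (D : Set Y) z g => IsLocalEq (Cm p) D g z) m k' s := by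
  classical
  intro z₀
  obtain ⟨T, g, a, hT, hg, ha, hev⟩ := hs z₀
  have hch : ∀ D, ∃ g' : Y → ℂ, (D ∈ T ∨ k' D ≠ 0) → IsLocalEq (Cm p) D g' z₀ ∧
      (D ∈ T → g' = g D) := by
    intro D
    by_cases hD : D ∈ T
    · exact ⟨g D, fun _ => ⟨hg D hD, fun _ => rfl⟩⟩
    · by_cases hD' : k' D ≠ 0
      · obtain ⟨e, he⟩ := (hpr D hD').2.1 z₀
        exact ⟨e, fun _ => ⟨he, fun h => absurd h hD⟩⟩
      · exact ⟨0, fun h => (h.elim hD hD').elim⟩
  choose g' hg' using hch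
  set T' : Finset (Set Y) := T ∪ hfin.toFinset with hT'
  have hmem : ∀ D ∈ T', D ∈ T ∨ k' D ≠ 0 := by
    intro D hD
    rcases Finset.mem_union.1 hD with h | h
    · exact Or.inl h
    · exact Or.inr ((Set.Finite.mem_toFinset hfin).1 h)
  have h1 : ∀ z, ∏ D ∈ T', g' D z ^ k D = ∏ D ∈ T, g D z ^ k D := by
    intro z
    symm
    rw [← Finset.prod_subset (Finset.subset_union_left : T ⊆ T')]
    · refine Finset.prod_congr rfl fun D hD => ?_
      rw [(hg' D (Or.inl hD)).2 hD]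
    · intro D _ hD
      have h2 : k D = 0 := by
        by_contra h
        exact hD (hT D h)
      rw [h2, pow_zero]
  have h2 : ∀ z, ∏ D ∈ T', g' D z ^ k' D = (∏ D ∈ T', g' D z ^ k D) *
      ∏ D ∈ T', g' D z ^ (k' D - k D) := by
    intro z
    rw [← Finset.prod_mul_distrib]
    refine Finset.prod_congr rfl fun D _ => ?_
    rw [← pow_add]
    congr 1
    have := hk D
    omega
  refine ⟨T', g', fun z => a z * ∏ D ∈ T', g' D z ^ (k' D - k D), fun D hD =>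
    Finset.mem_union_right _ ((Set.Finite.mem_toFinset hfin).2 hD), fun D hD =>
    (hg' D (hmem D hD)).1, ?_, ?_⟩
  · exact HolV.mul ha (HolV.prod fun D hD => ((hg' D (hmem D hD)).1.holAt).pow _)
  · filter_upwards [hev] with z hz h3
    rw [h2 z] at h3 ⊢
    rw [h1 z] at h3 ⊢
    have h4 := hz (left_ne_zero_of_mul h3)
    rw [← mul_assoc, h4]
    ring

/-- the pole condition for powers -/
theorem pole_pow {f : Z → Y} {S : Set Y} {m : ℕ} {K : Set Z → ℕ} {t : Y → ℂ}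
    (htP : ∀ (z₀ : Z) (T : Finset (Set Z)) (e : Set Z → Z → ℂ), (∀ D, K D ≠ 0 → D ∈ T) →
      (∀ D ∈ T, IsLocalEq (Cm n) D (e D) z₀) → ∀ I : Fin m → Fin p → Fin n, ∃ a : Z → ℂ,
        HolV (Cm n) a z₀ ∧ ∀ᶠ z in 𝓝 z₀, f z ∉ S → ∏ D ∈ T, e D z ^ K D ≠ 0 →
          t (f z) * TL.minors (n := n) (p := p) m (id : Z → Z) f z₀ z I *
            ∏ D ∈ T, e D z ^ K D = a z) {q M : ℕ} (hq : 0 < q) (hM : M = m * q) :
    ∀ (z₀ : Z) (T : Finset (Set Z)) (e : Set Z → Z → ℂ), (∀ D, q * K D ≠ 0 → D ∈ T) →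
      (∀ D ∈ T, IsLocalEq (Cm n) D (e D) z₀) → ∀ I : Fin M → Fin p → Fin n, ∃ a : Z → ℂ,
        HolV (Cm n) a z₀ ∧ ∀ᶠ z in 𝓝 z₀, f z ∉ S → ∏ D ∈ T, e D z ^ (q * K D) ≠ 0 →
          t (f z) ^ q * TL.minors (n := n) (p := p) M (id : Z → Z) f z₀ z I *
            ∏ D ∈ T, e D z ^ (q * K D) = a z := by
  classical
  subst hM
  intro z₀ T e hT he I
  have hT' : ∀ D, K D ≠ 0 → D ∈ T := fun D hD => hT D (Nat.mul_ne_zero hq.ne' hD)
  choose a ha hae using fun b : Fin q => htP z₀ T e hT' he (fun r => I (finProdFinEquiv (r, b)))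
  refine ⟨fun z => ∏ b, a b z, HolV.prod fun b _ => ha b, ?_⟩
  filter_upwards [Filter.eventually_all.2 hae] with z hz hzS h0
  have h1 : ∏ D ∈ T, e D z ^ K D ≠ 0 := by
    refine Finset.prod_ne_zero_iff.2 fun D hD => ?_
    by_cases h2 : K D = 0
    · rw [h2, pow_zero]; exact one_ne_zero
    · have h3 := Finset.prod_ne_zero_iff.1 h0 D hD
      refine pow_ne_zero _ fun h4 => h3 ?_
      rw [h4, zero_pow (Nat.mul_ne_zero hq.ne' h2)]
  have h2 : ∏ D ∈ T, e D z ^ (q * K D) = (∏ D ∈ T, e D z ^ K D) ^ q := by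
    rw [← Finset.prod_pow]
    refine Finset.prod_congr rfl fun D _ => ?_
    rw [← pow_mul, mul_comm]
  have h3 : TL.minors (n := n) (p := p) (m * q) (id : Z → Z) f z₀ z I =
      ∏ b : Fin q, TL.minors (n := n) (p := p) m (id : Z → Z) f z₀ z
        (fun r => I (finProdFinEquiv (r, b))) := by
    simp only [minors_eq]
    rw [← finProdFinEquiv.prod_comp, Fintype.prod_prod_type_right]
  rw [h2, h3]
  have h4 : ∀ b, t (f z) * TL.minors (n := n) (p := p) m (id : Z → Z) f z₀ z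
      (fun r => I (finProdFinEquiv (r, b))) * ∏ D ∈ T, e D z ^ K D = a b z := fun b =>
    hz b hzS h1
  simp only [← h4]
  rw [Finset.prod_mul_distrib, Finset.prod_mul_distrib, Finset.prod_const, Finset.prod_const,
    Finset.card_univ, Fintype.card_fin]

/-- local equations of a finite union of prime divisors -/
theorem exists_eqn {𝒢 : Set (Set Y)} (h𝒢fin : 𝒢.Finite)
    (h𝒢pr : ∀ G ∈ 𝒢, IsPrimeDivisor (Cm p) G) (y : Y) :
    ∃ g : Y → ℂ, HolV (Cm p) g y ∧ ∀ᶠ y' in 𝓝 y, y' ∈ ⋃₀ 𝒢 ↔ g y' = 0 := by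
  classical
  have hch : ∀ G, ∃ g : Y → ℂ, G ∈ h𝒢fin.toFinset → IsLocalEq (Cm p) G g y := by
    intro G
    by_cases hG : G ∈ h𝒢fin.toFinset
    · obtain ⟨g, hg⟩ := (h𝒢pr G (h𝒢fin.mem_toFinset.1 hG)).2.1 y
      exact ⟨g, fun _ => hg⟩
    · exact ⟨0, fun h => absurd h hG⟩
  choose g hg using hch
  refine ⟨fun y => ∏ G ∈ h𝒢fin.toFinset, g G y, HolV.prod fun G hG => (hg G hG).holAt, ?_⟩
  have h1 : ∀ᶠ y' in 𝓝 y, ∀ G ∈ h𝒢fin.toFinset, IsLocalEq (Cm p) G (g G) y' := by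
    rw [Filter.eventually_all_finset]
    exact fun G hG => (hg G hG).eventually
  filter_upwards [h1] with y' hy'
  rw [Finset.prod_eq_zero_iff, mem_sUnion]
  constructor
  · rintro ⟨G, hG, hyG⟩
    have hG' := h𝒢fin.mem_toFinset.2 hG
    exact ⟨G, hG', (hy' G hG').mem_iff.1 hyG⟩
  · rintro ⟨G, hG, hyG⟩
    exact ⟨G, h𝒢fin.mem_toFinset.1 hG, (hy' G hG).mem_iff.2 hyG⟩

end Vale.Agent.P281.H713.TZ
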