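import Vale.Agent.P281.ISO.DefsQ

/-! P281, theorem TZ: the definitions of the final statements. -/

namespace Vale.Agent.P281.H713.TZ.S

open scoped Manifold ContDiff Topology
open Filter Set Vale.Agent.P281.J

noncomputable section

/-- `ℂⁿ`. -/
abbrev Cm (n : ℕ) : Type := Fin n → ℂ

section Two

variable (E E' E₀ : Type) [NormedAddCommGroup E] [NormedSpace ℂ E]
  [NormedAddCommGroup E'] [NormedSpace ℂ E'] [NormedAddCommGroup E₀] [NormedSpace ℂ E₀]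
variable {X Y Z F : Type} [TopologicalSpace X] [ChartedSpace E X]
  [TopologicalSpace Y] [ChartedSpace E' Y] [TopologicalSpace F] [ChartedSpace E₀ F]
  [TopologicalSpace Z] [ChartedSpace E Z]

/-- `κ(X, K_X + Δ)` -/
def kodX (Δ : Set X → ℝ) : WithBot ℕ∞ := kod E (fun (D : Set X) x g => IsLocalEq E D g x) Δ

/-- `κ(F, K_F + i^* Δ)` for `i : F → X` -/
def kodR (i : F → X) (Δ : Set X → ℝ) : WithBot ℕ∞ :=
  kod E₀ (fun (D : Set X) t g => ∃ e, IsLocalEq E D e (i t) ∧ ∀ᶠ s in 𝓝 t, g s = e (i s)) Δ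

/-- `X`, `Z`, `Y` are complex manifolds, `f : X ⇢ Y` is a meromorphic map, holomorphic on the open
subset `j : Z → X` whose complement has codimension at least `2`, `𝒢` is a finite set of prime
divisors of `Y`, `Δ` is a rational SNC boundary of `X`, and `Δ'` is its restriction to `Z`. -/
def Setup (j : Z → X) (f : Z → Y) (𝒢 : Set (Set Y)) (Δ : Set X → ℝ) (Δ' : Set Z → ℝ) : Prop :=
  IsManifold 𝓘(ℂ, E) ω X ∧ IsManifold 𝓘(ℂ, E) ω Z ∧ IsManifold 𝓘(ℂ, E') ω Y ∧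
    IsBigOpen E j ∧ ContMDiff 𝓘(ℂ, E) 𝓘(ℂ, E') ω f ∧ 𝒢.Finite ∧ (∀ G ∈ 𝒢, IsPrime E' G) ∧
    IsSNC E Δ ∧ IsSNC E Δ' ∧ IsRestriction j Δ Δ'

/-- `i : F → Z` is a holomorphic immersion of the complex manifold `F` in a fibre of `f` over
`Y ∖ ⋃ G`. -/
def InFibre (f : Z → Y) (𝒢 : Set (Set Y)) (i : F → Z) : Prop :=
  IsManifold 𝓘(ℂ, E₀) ω F ∧ ContMDiff 𝓘(ℂ, E₀) 𝓘(ℂ, E) ω i ∧
    (∀ t, Function.Injective (mfderiv 𝓘(ℂ, E₀) 𝓘(ℂ, E) i t)) ∧ ∃ y, y ∉ ⋃₀ 𝒢 ∧ ∀ t, f (i t) = y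

/-- `df (v)` at `z`, where the vector `v` is given in the chart of `X` at `x`. -/
def dch (j : Z → X) (f : Z → Y) (x : X) (z : Z) (v : E) : E' :=
  (mfderiv 𝓘(ℂ, E) 𝓘(ℂ, E') f z : E →L[ℂ] E')
    (Ring.inverse (M₀ := E →L[ℂ] E) (mfderiv 𝓘(ℂ, E) 𝓘(ℂ, E) (fun w => chartAt E x (j w)) z) v)

/-- `σ` is a meromorphic section of `m K_Y` (with poles on the prime divisors `G ∈ 𝒢`; it is recorded
as in `IsSection`), whose pull-back by `f : X ⇢ Y` (holomorphic on the open subset `Z` of `X`) has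
poles of order at most `K D` along the divisors `D`, and no other poles (`c x z I` are the
coefficients of the pull-back of the frame of `m K_Y`, in the chart of `X` at `x`). -/
def PullSec (m : ℕ) (K : Set X → ℕ) (𝒢 : Set (Set Y)) (j : Z → X) (f : Z → Y) {T : Type}
    (c : X → Z → T → ℂ) (σ : Y → ℂ) : Prop :=
  (∃ k : Set Y → ℕ, (∀ G, k G ≠ 0 → G ∈ 𝒢) ∧
    IsSection E' (fun (G : Set Y) y g => IsLocalEq E' G g y) m k σ) ∧
  ∀ x : X, ∃ (T : Finset (Set X)) (g : Set X → X → ℂ), (∀ D, K D ≠ 0 → D ∈ T) ∧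
    (∀ D ∈ T, IsLocalEq E D (g D) x) ∧ ∀ I, ∃ a : X → ℂ,
      HolAt E a x ∧ ∀ᶠ y in 𝓝 x, ∀ z, j z = y → (∀ G ∈ 𝒢, f z ∉ G) → ∏ D ∈ T, g D y ^ K D ≠ 0 →
        σ (f z) * c x z I * ∏ D ∈ T, g D y ^ K D = a y

/-- The supremum of the `l` such that, for some `m > 0`, there are meromorphic sections
`σ_0, ..., σ_l` of `m K_Y`, whose pull-backs to `X` have poles `≤ m Δ`, for which the map
`(σ_1 / σ_0, ..., σ_l / σ_0)` is submersive somewhere. -/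
def kodG (Δ : Set X → ℝ) (j : Z → X) (f : Z → Y) {T : ℕ → Type} (c : ∀ m, X → Z → T m → ℂ) :
    WithBot ℕ∞ :=
  ⨆ (l : ℕ) (_ : ∃ (m : ℕ) (K : Set X → ℕ) (𝒢 : Set (Set Y)) (σ : ℕ → Y → ℂ) (y : Y), 0 < m ∧
    (∀ D, (K D : ℝ) ≤ m * Δ D) ∧ 𝒢.Finite ∧ (∀ G ∈ 𝒢, IsPrime E' G) ∧
    (∀ b, PullSec E E' m K 𝒢 j f (c m) (σ b)) ∧ (∀ G ∈ 𝒢, y ∉ G) ∧ σ 0 y ≠ 0 ∧
    Function.Surjective fun (ξ : E') (b : Fin l) => dif E' (fun w => σ (b + 1) w / σ 0 w) y ξ),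
    (l : WithBot ℕ∞)

end Two

section Three

variable {X Y Z : Type} [TopologicalSpace X] [TopologicalSpace Y] [TopologicalSpace Z]

/-- The coefficients of `f^*(dy_1 ∧ ... ∧ dy_p)^{⊗ m}` at `z ∈ Z`, in the chart of `X` at `x`, and
the chart of `Y` at `f z`: product of minors of order `p` of the matrix of `df`. -/
def minors (n p m : ℕ) [ChartedSpace (Cm n) X] [ChartedSpace (Cm p) Y] [ChartedSpace (Cm n) Z]
    (j : Z → X) (f : Z → Y) (x : X) (z : Z) (I : Fin m → Fin p → Fin n) : ℂ :=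
  ∏ r, Matrix.det (Matrix.of fun a b : Fin p =>
    dch (Cm n) (Cm p) j f x z (Pi.single (I r b) 1) a)

/-- The dimension of the saturation of `f^* K_Y` in the orbifold tensors of `(X, Δ)`: the supremum of
the `l` such that, for some `m > 0`, there are meromorphic sections `σ_0, ..., σ_l` of `m K_Y`, whose
pull-backs to `X` are sections of `(Ω^p_X)^{⊗ m}` with poles `≤ m Δ`, for which the map
`(σ_1 / σ_0, ..., σ_l / σ_0)` is submersive somewhere. -/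
def kodF (n p : ℕ) [ChartedSpace (Cm n) X] [ChartedSpace (Cm p) Y] [ChartedSpace (Cm n) Z]
    (Δ : Set X → ℝ) (j : Z → X) (f : Z → Y) : WithBot ℕ∞ :=
  kodG (Cm n) (Cm p) Δ j f fun m => minors n p m j f

end Three

end

end Vale.Agent.P281.H713.TZ.S
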