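import Vale.Agent.P281.H713.TZ.S

/-! P281: orbifold morphisms. -/

namespace Vale.Agent.P281.H713.TZ.S

open scoped Manifold ContDiff Topology
open Filter Set Vale.Agent.P281.J

noncomputable section

variable (E E' : Type) [NormedAddCommGroup E] [NormedSpace ℂ E] [NormedAddCommGroup E']
  [NormedSpace ℂ E'] {Z Y : Type} [TopologicalSpace Z] [ChartedSpace E Z] [TopologicalSpace Y]
  [ChartedSpace E' Y]

/-- `f : (Z, Δ') → (Y, Γ)` is a morphism of orbifolds in codimension one: if `f^* G = k {e = 0}` near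
a point `z` of the smooth hypersurface `e = 0`, and `δ` is the sum of the coefficients of the
components of `Δ'` through `z`, then `k / (1 - δ) ≥ 1 / (1 - Γ(G))`, that is,
`1 - δ ≤ k (1 - Γ(G))`. -/
def OrbMor (f : Z → Y) (Δ' : Set Z → ℝ) (Γ : Set Y → ℝ) : Prop :=
  ∀ (z : Z) (G : Set Y) (g : Y → ℂ) (e w : Z → ℂ) (k : ℕ), Γ G ≠ 0 → IsLocalEq E' G g (f z) →
    HolAt E e z → e z = 0 → dif E e z ≠ 0 → HolAt E w z → w z ≠ 0 → 0 < k →
    (∀ᶠ x in 𝓝 z, g (f x) = e x ^ k * w x) →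
    1 - ∑ᶠ (D : Set Z) (_ : z ∈ D), Δ' D ≤ k * (1 - Γ G)

/-- `Γ = ∑ Γ(G) G` has simple normal crossings at `y`. -/
def SNCAt (Γ : Set Y → ℝ) (y : Y) : Prop :=
  ∀ g : Set Y → Y → ℂ, (∀ G, Γ G ≠ 0 → y ∈ G → IsLocalEq E' G (g G) y) →
    Function.Surjective fun (ξ : E') (G : {G // Γ G ≠ 0 ∧ y ∈ G}) => dif E' (g G) y ξ

/-- `κ(Y, K_Y + Γ) ≤ c` for all rational boundaries `Γ` of `Y` (coefficients in `[0, 1]`), with
simple normal crossings at the images of the general points of `f⁻¹(Γ)`, such that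
`f : (Z, Δ') → (Y, Γ)` is a morphism of orbifolds in codimension one (for instance: `Γ = 0`; `Γ` is
a reduced SNC divisor and `f⁻¹(Γ)` is contained in the reduced part of `Δ'`; `Γ` is the orbifold
base `B(f, Δ')`, if every component of `f⁻¹(Γ)` dominates a component of `Γ`). -/
def OrbLe (f : Z → Y) (Δ' : Set Z → ℝ) (c : WithBot ℕ∞) : Prop :=
  ∀ Γ : Set Y → ℝ, {G | Γ G ≠ 0}.Finite → (∀ G, Γ G ≠ 0 → IsPrime E' G) →
    (∀ G, ∃ q : ℚ, Γ G = q ∧ 0 ≤ q ∧ q ≤ 1) → (∀ z G, Γ G ≠ 0 → f z ∈ G →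
      z ∈ closure {z' | (∃ G, Γ G ≠ 0 ∧ f z' ∈ G) ∧ ∀ᶠ y in 𝓝 (f z'), SNCAt E' Γ y}) →
    OrbMor E E' f Δ' Γ → kodX E' Γ ≤ c

end

end Vale.Agent.P281.H713.TZ.S
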