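import Vale.Agent.P281.H713.TZ.S2

/-! P281: Campana's orbifold base dimension `κ(f | Δ)`. -/

namespace Vale.Agent.P281.H713.TZ.S

open scoped Manifold ContDiff Topology ENNReal
open Filter Set Vale.Agent.P281.J

noncomputable section

section Two

variable (E E' : Type) [NormedAddCommGroup E] [NormedSpace ℂ E] [NormedAddCommGroup E']
  [NormedSpace ℂ E'] {X Y X' Y' : Type} [TopologicalSpace X] [ChartedSpace E X]
  [TopologicalSpace Y] [ChartedSpace E' Y] [TopologicalSpace X'] [ChartedSpace E X']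
  [TopologicalSpace Y'] [ChartedSpace E' Y']

/-- `u : X' → X` is a proper bimeromorphic holomorphic map of complex manifolds (the points of a dense
open subset of `X` have one preimage). -/
def IsModif (u : X' → X) : Prop :=
  (T2Space X ∧ T2Space X' ∧ IsManifold 𝓘(ℂ, E) ω X ∧ IsManifold 𝓘(ℂ, E) ω X') ∧
    ContMDiff 𝓘(ℂ, E) 𝓘(ℂ, E) ω u ∧ IsProperMap u ∧
      ∃ U, IsOpen U ∧ Dense U ∧ Dense (u ⁻¹' U) ∧ ∀ x ∈ U, ∃! z, u z = x

open Classical in
/-- The orbifold base `B(f, Δ)`: its coefficient at the prime divisor `G` is `1 - 1 / m`, where `m` is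
the infimum of `ord_D(f^* G) / (1 - Δ(D))` over the prime divisors `D` such that `f(D)` is dense in
`G`. -/
def base (f : X → Y) (Δ : Set X → ℝ) (G : Set Y) : ℝ :=
  if IsPrime E' G then (1 - (⨅ (D : Set X) (_ : IsPrime E D ∧ closure (f '' D) = G),
    ((sInf {k : ℕ | ∃ x ∈ D, ∃ e g w, IsLocalEq E D e x ∧ IsLocalEq E' G g (f x) ∧ HolAt E w x ∧
      w x ≠ 0 ∧ ∀ᶠ z in 𝓝 x, g (f z) = e z ^ k * w z} : ℕ) : ℝ≥0∞) *
    (1 - ENNReal.ofReal (Δ D))⁻¹)⁻¹).toReal else 0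

/-- There is a commutative square `f ∘ u = v ∘ f'`, where `f` and `f'` are holomorphic,
`u : X' → X` and `v : Y' → Y` are proper and bimeromorphic, `Δ` and `Δ'` are rational SNC boundaries,
`u_* Δ' = Δ`, and `u : (X', Δ') → (X, Δ)` is a morphism of orbifolds in codimension one. -/
def IsStep (f' : X' → Y') (Δ' : Set X' → ℝ) (f : X → Y) (Δ : Set X → ℝ) : Prop :=
  ∃ (u : X' → X) (v : Y' → Y), IsModif E u ∧ IsModif E' v ∧ (∀ x, f (u x) = v (f' x)) ∧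
    ContMDiff 𝓘(ℂ, E) 𝓘(ℂ, E') ω f ∧ ContMDiff 𝓘(ℂ, E) 𝓘(ℂ, E') ω f' ∧ IsSNC E Δ ∧ IsSNC E Δ' ∧
    (∀ D, IsPrime E D → IsPrime E (u '' D) → Δ' D = Δ (u '' D)) ∧ OrbMor E E u Δ' Δ

end Two

section Fib

variable (E E' : Type) [NormedAddCommGroup E] [NormedSpace ℂ E] [NormedAddCommGroup E']
  [NormedSpace ℂ E']

/-- `f : (X, Δ) → Y` -/
structure Fib : Type 1 where
  X : Type
  Y : Type
  tX : TopologicalSpace X
  tY : TopologicalSpace Y
  cX : ChartedSpace E X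
  cY : ChartedSpace E' Y
  f : X → Y
  Δ : Set X → ℝ

attribute [local instance] Fib.tX Fib.tY Fib.cX Fib.cY

/-- `M'` is linked to `M` by a chain of commutative squares `IsStep` (in either direction). -/
def Linked (M M' : Fib E E') : Prop :=
  Relation.EqvGen (fun A B : Fib E E' => IsStep E E' A.f A.Δ B.f B.Δ) M M'

/-- Campana's orbifold base dimension `κ(f | Δ) = inf κ(Y', K_{Y'} + B(f', Δ'))`, where
`f' : (X', Δ') → Y'` is linked to `f : (X, Δ) → Y`. -/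
def kap (M : Fib E E') : WithBot ℕ∞ :=
  ⨅ (M' : Fib E E') (_ : Linked E E' M M'), kodX E' (base E E' M'.f M'.Δ)

/-- Let `Γ` be a rational boundary of `Y` (coefficients in `[0, 1]`), with simple normal crossings at
the images of the general points of `f⁻¹(Γ)`, such that `f : (Z, Δ') → (Y, Γ)` is a morphism of
orbifolds in codimension one (for instance: `Γ = 0`; `Γ` is a reduced SNC divisor and `f⁻¹(Γ)` is
contained in the reduced part of `Δ'`).  Then `κ(Y, K_Y + Γ) ≤ c`; and if, moreover,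
`Γ = B(f₁, Δ₁)` for some `f₁ : (X₁, Δ₁) → Y` linked to `f₀ : (X₀, Δ₀) → Y₀` (for instance, a neat
model of `f₀`, with `Z` open in `X₀`), then `κ(f₀ | Δ₀) ≤ c`. -/
def KapLe {Z Y : Type} [TopologicalSpace Z] [tY : TopologicalSpace Y] [ChartedSpace E Z]
    [cY : ChartedSpace E' Y] (f : Z → Y) (Δ' : Set Z → ℝ) (c : WithBot ℕ∞) : Prop :=
  ∀ Γ : Set Y → ℝ, {G | Γ G ≠ 0}.Finite → (∀ G, Γ G ≠ 0 → IsPrime E' G) →
    (∀ G, ∃ q : ℚ, Γ G = q ∧ 0 ≤ q ∧ q ≤ 1) → (∀ z G, Γ G ≠ 0 → f z ∈ G →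
      z ∈ closure {z' | (∃ G, Γ G ≠ 0 ∧ f z' ∈ G) ∧ ∀ᶠ y in 𝓝 (f z'), SNCAt E' Γ y}) →
    OrbMor E E' f Δ' Γ → kodX E' Γ ≤ c ∧
      ∀ (M₀ : Fib E E') (X₁ : Type) (tX : TopologicalSpace X₁) (cX : ChartedSpace E X₁)
        (f₁ : X₁ → Y) (Δ₁ : Set X₁ → ℝ), Linked E E' M₀ ⟨X₁, Y, tX, tY, cX, cY, f₁, Δ₁⟩ →
        Γ = base E E' f₁ Δ₁ → kap E E' M₀ ≤ c

end Fib

end

end Vale.Agent.P281.H713.TZ.S
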