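import Vale.Agent.P281.H713.DefsZ
import Vale.Agent.P281.H713.TZ.S

/-! P281: forms on the fibres, controlled by periods. -/

namespace Vale.Agent.P281.H713.TZ.S

open scoped Manifold ContDiff Topology ENNReal NNReal
open Set Metric MeasureTheory Vale.Agent.P281 Vale.Agent.P281.H713

section

variable (E E' : Type) [NormedAddCommGroup E] [NormedSpace ℂ E]
  [NormedAddCommGroup E'] [NormedSpace ℂ E']
variable {X Y : Type} [TopologicalSpace X] [ChartedSpace E X]
  [TopologicalSpace Y] [ChartedSpace E' Y]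
variable {V : Type} [NormedAddCommGroup V] [InnerProductSpace ℂ V] [FiniteDimensional ℂ V]

/-- The differential of `f` at `x`, applied to `v`. -/
noncomputable def dmap (f : X → Y) (x : X) (v : E) : E' :=
  (mfderiv 𝓘(ℂ, E) 𝓘(ℂ, E') f x : E →L[ℂ] E') v

/-- The coefficient at `v` of the pull-back of `η` by `q : ℂ ^ d → X`. -/
noncomputable def pullF {d : ℕ} (η : X → (Fin d → E) → ℂ) (q : Cm d → X) (v : Cm d) : ℂ :=
  η (q v) fun l => dmap (Cm d) E q v (Pi.single l 1)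

/-- Over `Y ∖ S`, `f : X → Y` is a smooth family of manifolds of dimension `d`, with varying moduli,
and the `η a i`, `i < t`, are `N`-canonical forms on the fibres of `f` over `U a`, with poles of
order at most `κ D` along the divisors `D`, such that the map `(η a 0 : ⋯ : η a (t - 1))` has rank
`≥ r` on each fibre, controlled by periods: those of polarized complex tori, `π a y`, and those of
`b` Hodge structures of K3 type, `p a y j`; the forms `η b i` are, up to a permutation, the products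
of the forms `η a i` with the factor given by the change of periods, and the integrals of
`|η a i| ^ (2 / N)` are bounded by the norms of the periods. -/
structure HasPeriodForms {n m d b t : ℕ} (f : X → Y) (S : Set Y) (r N : ℕ) (κ : Set X → ℕ)
    (Q : (Fin n → ℝ) → (Fin n → ℝ) → ℝ) (s : ℕ) (B : Fin b → Matrix (Fin m) (Fin m) ℝ)
    (w : Fin b → Fin m → ℝ) (e : Fin b → ℕ) {ι : Type} (U : ι → Set Y)
    (π : ι → Y → ((Fin n → ℝ) ≃L[ℝ] V)) (p : ι → Y → Fin b → Fin m → ℂ)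
    (η : ι → Fin t → X → (Fin d → E) → ℂ) : Prop extends IsPeriodFamily E' S Q U π where
  period : ∀ a, ∀ y ∈ U a, ∀ j, IsK3Period (B j) (w j) (p a y j) ∧
    ∀ i, J.HolAt E' (fun y => p a y j i) y
  chart : ∀ x, f x ∉ S → ∃ ζ : Fin d → X → ℂ, IsFibreChart E E' f ζ x
  forms : ∀ a x, f x ∈ U a → IsFibreForms E E' f N κ (η a) x
  rank : ∀ a, ∀ y ∈ U a, IsOfRank E E' f κ r (η a) y
  change : ∀ a b, ∀ y ∈ U a ∩ U b, ∃ (G : V ≃L[ℂ] V) (σ : _) (χ : _) (τ : Equiv.Perm (Fin t)),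
    IsPeriodChange Q (π a y) (π b y) G ∧ IsK3Changes B w e (p a y) (p b y) σ χ ∧
    ∀ x, f x = y → (∀ D, κ D ≠ 0 → x ∉ D) → ∀ i ξ, IsVertical E E' f x ξ →
      η b (τ i) x ξ = (G : V →L[ℂ] V).det ^ s * (∏ j, χ j ^ e j) * η a i x ξ
  norm : ∃ A : ℝ, ∀ a i (q : (Fin d → ℂ) → X) (v₀ : Fin d → ℂ) (r : ℝ), IsPolydisc E f q v₀ r →
    f (q v₀) ∈ U a → (∀ v ∈ ball v₀ r, ∀ D, κ D ≠ 0 → q v ∉ D) →
    ∀ G : V ≃L[ℂ] V, (∀ x x', (inner ℂ (G (π a (f (q v₀)) x)) (G (π a (f (q v₀)) x'))).im =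
      Q x x') → (∫⁻ v in ball v₀ r, ‖pullF E (η a i) q v‖ₑ ^ (2 / (N : ℝ))) ^ N *
        ‖(G : V →L[ℂ] V).det‖ₑ ^ (2 * s) ≤
      ENNReal.ofReal (A * periodNorm B e (p a (f (q v₀))))


end

end Vale.Agent.P281.H713.TZ.S
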