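import Vale.Agent.P281.H713.TZ.Fin
import Vale.Agent.P281.H713.TZ.S

/-! P281, theorem TZ: the final statements from the theorems of `TZ.Fin`. -/

namespace Vale.Agent.P281.H713.TZ.S

open scoped Manifold ContDiff Topology
open Filter Set

set_option linter.all false

variable {n p : ℕ} {X Y Z : Type} [TopologicalSpace X] [TopologicalSpace Y]
  [TopologicalSpace Z] [ChartedSpace (Cm n) X] [ChartedSpace (Cm n) Z] [ChartedSpace (Cm p) Y]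

theorem pullSec_iff {m : ℕ} {K : Set X → ℕ} {𝒢 : Set (Set Y)} {j : Z → X} {f : Z → Y} {σ : Y → ℂ} :
    PullSec (Cm n) (Cm p) m K 𝒢 j f (minors n p m j f) σ ↔
      TL.IsPullSection (n := n) (p := p) m K 𝒢 j f σ :=
  ⟨fun h => ⟨h.1, h.2⟩, fun h => ⟨h.mero, h.pole⟩⟩

theorem kodF_eq {Δ : Set X → ℝ} {j : Z → X} {f : Z → Y} :
    kodF n p Δ j f = TL.kodF (n := n) (p := p) Δ j f := by
  have h1 : kodF n p Δ j f = ⨆ (l : ℕ) (_ : ∃ (m : ℕ) (K : Set X → ℕ) (𝒢 : Set (Set Y))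
    (σ : ℕ → Y → ℂ) (y : Y), 0 < m ∧
    (∀ D, (K D : ℝ) ≤ m * Δ D) ∧ 𝒢.Finite ∧ (∀ G ∈ 𝒢, J.IsPrime (Cm p) G) ∧
    (∀ b, PullSec (Cm n) (Cm p) m K 𝒢 j f (minors n p m j f) (σ b)) ∧ (∀ G ∈ 𝒢, y ∉ G) ∧ σ 0 y ≠ 0 ∧
    Function.Surjective fun (ξ : Cm p) (b : Fin l) =>
      J.dif (Cm p) (fun w => σ (b + 1) w / σ 0 w) y ξ),
    (l : WithBot ℕ∞) := rfl
  rw [h1]
  simp only [pullSec_iff]
  rfl

theorem one (hn : n = p + 1) {E₀ F : Type} [NormedAddCommGroup E₀] [NormedSpace ℂ E₀]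
    [FiniteDimensional ℂ E₀] (hE₀ : Module.finrank ℂ E₀ = 1) [T2Space X] [ConnectedSpace X]
    [TopologicalSpace F] [CompactSpace F] [ConnectedSpace F] [ChartedSpace E₀ F]
    {Δ : Set X → ℝ} {Δ' : Set Z → ℝ} {j : Z → X} {f : Z → Y} {𝒢 : Set (Set Y)}
    (h : Setup (Cm n) (Cm p) j f 𝒢 Δ Δ') (hC : IsFamilyOfCurves (Cm n) (Cm p) f (⋃₀ 𝒢) Δ')
    {i : F → Z} (hi : InFibre (Cm n) E₀ f 𝒢 i) :
    kodR (Cm n) E₀ i Δ' + kodF n p Δ j f ≤ kodX (Cm n) Δ := by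
  obtain ⟨hX, hZ, hY, hj, hf, h1, h2, h3, h4, h5⟩ := h
  obtain ⟨hF, hi, hi', y, hy, hiy⟩ := hi
  rw [kodF_eq]
  exact main_oneT hn hE₀ j hj f hf 𝒢 h1 h2 Δ h3 Δ' h4 h5 hC i hi hi' hy hiy

end Vale.Agent.P281.H713.TZ.S
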