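import Vale.Agent.P281.H713.TZ.SFin
import Vale.Agent.P281.H713.DefsG
import Vale.Agent.P281.H713.DefsK

/-! P281, theorem TZ: the final statements for fibres with maps to tori or with forms controlled by
periods. -/

namespace Vale.Agent.P281.H713.TZ.S

open scoped Manifold ContDiff Topology
open Filter Set

set_option linter.all false

variable {n p : ℕ} {X Y Z : Type} [TopologicalSpace X] [TopologicalSpace Y]
  [TopologicalSpace Z] [ChartedSpace (Cm n) X] [ChartedSpace (Cm n) Z] [ChartedSpace (Cm p) Y]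

theorem alb {d : ℕ} (hd : 0 < d) (hn : n = p + d) {E₀ F : Type} [NormedAddCommGroup E₀]
    [NormedSpace ℂ E₀] [FiniteDimensional ℂ E₀] (hE₀ : Module.finrank ℂ E₀ = d) [T2Space X]
    [ConnectedSpace X] [TopologicalSpace F] [ChartedSpace E₀ F] (hF : IsManifold 𝓘(ℂ, E₀) ω F)
    {Δ : Set X → ℝ} {Δ' : Set Z → ℝ} {j : Z → X} {f : Z → Y} {𝒢 : Set (Set Y)}
    (h : Setup (Cm n) (Cm p) j f 𝒢 Δ Δ')
    {V : Type} [NormedAddCommGroup V] [InnerProductSpace ℂ V] [FiniteDimensional ℂ V]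
    {q : ℕ} {Q : (Fin q → ℝ) → (Fin q → ℝ) → ℝ} {ι : Type} (U : ι → Set Y)
    (π : ι → Y → ((Fin q → ℝ) ≃L[ℝ] V)) (α : ι → Z → V)
    (hC : IsAlbaneseFamily (Cm n) (Cm p) d f (⋃₀ 𝒢) Q U π α) (ΔF : Set F → ℝ) :
    kodX E₀ ΔF + kodF n p Δ j f ≤ kodX (Cm n) Δ := by
  obtain ⟨hX, hZ, hY, hj, hf, h1, h2, h3, h4, h5⟩ := h
  rw [kodF_eq]
  exact main_albT hd hn hE₀ j hj f hf 𝒢 h1 h2 U π α hC Δ h3 Δ' h4 h5 ΔF

theorem periods {N : ℕ} (hN : 0 < N) {d : ℕ} (hn : n = p + d) {E₀ F : Type}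
    [NormedAddCommGroup E₀] [NormedSpace ℂ E₀] [FiniteDimensional ℂ E₀] [T2Space X]
    [ConnectedSpace X] [TopologicalSpace F] [ChartedSpace E₀ F] (hF : IsManifold 𝓘(ℂ, E₀) ω F)
    {Δ : Set X → ℝ} {Δ' : Set Z → ℝ} {j : Z → X} {f : Z → Y} {𝒢 : Set (Set Y)}
    (h : Setup (Cm n) (Cm p) j f 𝒢 Δ Δ')
    {V : Type} [NormedAddCommGroup V] [InnerProductSpace ℂ V] [FiniteDimensional ℂ V]
    {q m b t r s : ℕ} {Q : (Fin q → ℝ) → (Fin q → ℝ) → ℝ} {B : Fin b → Matrix (Fin m) (Fin m) ℝ}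
    {w : Fin b → Fin m → ℝ} {e : Fin b → ℕ} (κ : Set Z → ℕ) {ι : Type} (U : ι → Set Y)
    (π : ι → Y → ((Fin q → ℝ) ≃L[ℝ] V)) (P : ι → Y → Fin b → Fin m → ℂ)
    (η : ι → Fin t → Z → (Fin d → Cm n) → ℂ)
    (hC : IsPeriodForms (Cm n) (Cm p) f (⋃₀ 𝒢) r N κ Q s B w e U π P η)
    (hκ : ∀ D, (κ D : ℝ) ≤ N * Δ' D) (ΔF : Set F → ℝ) (hr : kodX E₀ ΔF ≤ (r : WithBot ℕ∞)) :
    kodX E₀ ΔF + kodF n p Δ j f ≤ kodX (Cm n) Δ := by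
  obtain ⟨hX, hZ, hY, hj, hf, h1, h2, h3, h4, h5⟩ := h
  rw [kodF_eq]
  exact main_periodsT hN hn j hj f hf 𝒢 h1 h2 κ U π P η hC Δ h3 Δ' h4 h5 hκ ΔF hr

end Vale.Agent.P281.H713.TZ.S
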