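import Vale.Agent.P281.H713.TZ.SFinB
import Vale.Agent.P281.H713.TZ.S2
import Vale.Agent.P281.H713.CO.GMain

/-! P281, theorems TZ and CO: the final statements. -/

namespace Vale.Agent.P281.H713.TZ.S

open scoped Manifold ContDiff Topology
open Filter Set Module Vale.Agent.P281 Vale.Agent.P281.MF Vale.Agent.P281.ISO
open Vale.Agent.P281.ELL Vale.Agent.P281.H713 Vale.Agent.P281.H713.TZ

set_option linter.all false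

variable {n p : ℕ} {X Y Z : Type} [TopologicalSpace X] [TopologicalSpace Y]
  [TopologicalSpace Z] [ChartedSpace (Cm n) X] [ChartedSpace (Cm n) Z] [ChartedSpace (Cm p) Y]

theorem orbLe_of [T2Space X] [ConnectedSpace X] {Δ : Set X → ℝ} {Δ' : Set Z → ℝ} {j : Z → X}
    {f : Z → Y} {𝒢 : Set (Set Y)} (h : Setup (Cm n) (Cm p) j f 𝒢 Δ Δ')
    (hsub : ∃ z, Function.Surjective (mfderiv 𝓘(ℂ, Cm n) 𝓘(ℂ, Cm p) f z)) :
    OrbLe (Cm n) (Cm p) f Δ' (kodF n p Δ j f) := by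
  obtain ⟨hX, hZ, hY, hj, hf, h1, h2, h3, h4, h5⟩ := h
  intro Γ hΓ₁ hΓ₂ hΓ₃ hnc hmor
  rw [kodF_eq]
  exact H713.CO.comp_g H413.TZ.genPart h3 hj hf hsub ⟨hΓ₁, hΓ₂, hΓ₃⟩ hnc h4 h5 hmor

/-- some fibre over `Y ∖ ⋃ G` is not empty, if those over `Y ∖ ⋃ G` are not empty -/
theorem exists_off [ConnectedSpace X] {j : Z → X} (hj : J.IsBigOpen (Cm n) j) (f : Z → Y)
    [IsManifold 𝓘(ℂ, Cm n) ω X] [IsManifold 𝓘(ℂ, Cm n) ω Z] [IsManifold 𝓘(ℂ, Cm p) ω Y]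
    {𝒢 : Set (Set Y)} (h𝒢f : 𝒢.Finite)
    (h𝒢p : ∀ G ∈ 𝒢, J.IsPrime (Cm p) G) (hne : ∀ y, y ∉ ⋃₀ 𝒢 → ∃ z, f z = y) :
    ∃ z, f z ∉ ⋃₀ 𝒢 := by
  have hd := H949.TL.dense_range_big hj
  obtain ⟨x⟩ : Nonempty X := inferInstance
  obtain ⟨x', -, z, rfl⟩ : (univ ∩ range j : Set X).Nonempty :=
    hd.inter_open_nonempty _ isOpen_univ ⟨x, trivial⟩
  have h𝒢od := dense_compl_finite (X := Y) h𝒢f (fun G hG => (h𝒢p G hG).1) (fun G hG => by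
    rw [dense_iff_inter_open]
    intro U hU hUne
    obtain ⟨x, hxU, hxD⟩ := IsLocalEq.exists_notMem (h𝒢p G hG).2.1 hU hUne
    exact ⟨x, hxU, hxD⟩)
  obtain ⟨y, -, hy⟩ := h𝒢od.2.inter_open_nonempty _ isOpen_univ ⟨f z, trivial⟩
  have hy' : y ∉ ⋃₀ 𝒢 := by
    rintro ⟨G, hG, hyG⟩
    exact hy G hG hyG
  obtain ⟨z', hz'⟩ := hne y hy'
  exact ⟨z', by rw [hz']; exact hy'⟩

theorem sub_of_family (hn : n = p + 1) {f : Z → Y} {S : Set Y} {Δ' : Set Z → ℝ}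
    [IsManifold 𝓘(ℂ, Cm n) ω Z] [IsManifold 𝓘(ℂ, Cm p) ω Y]
    (hC : IsFamilyOfCurves (Cm n) (Cm p) f S Δ') {x : Z} (hx : f x ∉ S) :
    Function.Surjective (dM (Cm n) (Cm p) f x) := by
  have hE : finrank ℂ (Cm n) = finrank ℂ (Cm p) + 1 := by rw [fr, fr, hn]
  rcases hC with hC | hC | hC
  · obtain ⟨g, m, Q, ι, U, π, α, hg, hC⟩ := hC
    obtain ⟨ζ, -, h1⟩ := hC.coord x hx
    exact surj_of_coord (E₀ := ℂ) (by rw [hE, Module.finrank_self]) h1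
  · obtain ⟨m, d, Q, ι, U, π, u, P, hC⟩ := hC
    have hT := hC.toIsTorusFamily
    obtain ⟨a, ha⟩ := (hT.cover _).1 hx
    obtain ⟨ζ, -, -, h1⟩ := hT.coord a x ha
    exact surj_of_coord (E₀ := ℂ) (by rw [hE, Module.finrank_self])
      (P := (mfderiv 𝓘(ℂ, Cm n) 𝓘(ℂ, ℂ) ζ x : Cm n →L[ℂ] ℂ)) h1
  · obtain ⟨d, δ, ι, U, P, c, hC⟩ := hC
    exact sub_line hE hC x hx

theorem one' (hn : n = p + 1) {E₀ F : Type} [NormedAddCommGroup E₀] [NormedSpace ℂ E₀]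
    [FiniteDimensional ℂ E₀] (hE₀ : Module.finrank ℂ E₀ = 1) [T2Space X] [ConnectedSpace X]
    [TopologicalSpace F] [CompactSpace F] [ConnectedSpace F] [ChartedSpace E₀ F]
    {Δ : Set X → ℝ} {Δ' : Set Z → ℝ} {j : Z → X} {f : Z → Y} {𝒢 : Set (Set Y)}
    (h : Setup (Cm n) (Cm p) j f 𝒢 Δ Δ') (hC : IsFamilyOfCurves (Cm n) (Cm p) f (⋃₀ 𝒢) Δ')
    {i : F → Z} (hi : InFibre (Cm n) E₀ f 𝒢 i) :
    kodR (Cm n) E₀ i Δ' + kodF n p Δ j f ≤ kodX (Cm n) Δ ∧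
      OrbLe (Cm n) (Cm p) f Δ' (kodF n p Δ j f) := by
  refine ⟨one hn hE₀ h hC hi, orbLe_of h ?_⟩
  obtain ⟨hX, hZ, hY, -⟩ := h
  obtain ⟨hF, -, -, y, hy, hiy⟩ := hi
  obtain ⟨t⟩ : Nonempty F := inferInstance
  exact ⟨i t, sub_of_family hn hC (by rw [hiy]; exact hy)⟩

theorem alb' {d : ℕ} (hd : 0 < d) (hn : n = p + d) {E₀ F : Type} [NormedAddCommGroup E₀]
    [NormedSpace ℂ E₀] [FiniteDimensional ℂ E₀] (hE₀ : Module.finrank ℂ E₀ = d) [T2Space X]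
    [ConnectedSpace X] [TopologicalSpace F] [ChartedSpace E₀ F] (hF : IsManifold 𝓘(ℂ, E₀) ω F)
    {Δ : Set X → ℝ} {Δ' : Set Z → ℝ} {j : Z → X} {f : Z → Y} {𝒢 : Set (Set Y)}
    (h : Setup (Cm n) (Cm p) j f 𝒢 Δ Δ')
    {V : Type} [NormedAddCommGroup V] [InnerProductSpace ℂ V] [FiniteDimensional ℂ V]
    {q : ℕ} {Q : (Fin q → ℝ) → (Fin q → ℝ) → ℝ} {ι : Type} (U : ι → Set Y)
    (π : ι → Y → ((Fin q → ℝ) ≃L[ℝ] V)) (α : ι → Z → V)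
    (hC : IsAlbaneseFamily (Cm n) (Cm p) d f (⋃₀ 𝒢) Q U π α) (ΔF : Set F → ℝ) :
    kodX E₀ ΔF + kodF n p Δ j f ≤ kodX (Cm n) Δ ∧
      OrbLe (Cm n) (Cm p) f Δ' (kodF n p Δ j f) := by
  refine ⟨alb hd hn hE₀ hF h U π α hC ΔF, orbLe_of h ?_⟩
  obtain ⟨hX, hZ, hY, hj, hf, h1, h2, h3, h4, h5⟩ := h
  have hE : finrank ℂ (Cm n) = finrank ℂ (Cm p) + d := by rw [fr, fr, hn]
  obtain ⟨z, hz⟩ := exists_off hj f h1 h2 (by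
    intro y hy
    obtain ⟨a, ha⟩ := (hC.cover y).1 hy
    obtain ⟨q, v₀, -, h6, -⟩ := hC.nondeg a y ha
    exact ⟨q v₀, h6.self_of_nhds⟩)
  obtain ⟨ζ, -, h6⟩ := hC.coord z hz
  have h7 : Function.Surjective (dM (Cm n) (Cm p) f z) :=
    surj_of_coord (E₀ := Fin d → ℂ) (by simp [hn]) h6
  exact ⟨z, h7⟩

theorem periods' {N : ℕ} (hN : 0 < N) {d : ℕ} (hn : n = p + d) {E₀ F : Type}
    [NormedAddCommGroup E₀] [NormedSpace ℂ E₀] [FiniteDimensional ℂ E₀] [T2Space X]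
    [ConnectedSpace X] [TopologicalSpace F] [ChartedSpace E₀ F] (hF : IsManifold 𝓘(ℂ, E₀) ω F)
    {Δ : Set X → ℝ} {Δ' : Set Z → ℝ} {j : Z → X} {f : Z → Y} {𝒢 : Set (Set Y)}
    (h : Setup (Cm n) (Cm p) j f 𝒢 Δ Δ')
    {V : Type} [NormedAddCommGroup V] [InnerProductSpace ℂ V] [FiniteDimensional ℂ V]
    {q m b t r s : ℕ} {Q : (Fin q → ℝ) → (Fin q → ℝ) → ℝ} {B : Fin b → Matrix (Fin m) (Fin m) ℝ}
    {w : Fin b → Fin m → ℝ} {e : Fin b → ℕ} (κ : Set Z → ℕ) {ι : Type} (U : ι → Set Y)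
    (π : ι → Y → ((Fin q → ℝ) ≃L[ℝ] V)) (P : ι → Y → Fin b → Fin m → ℂ)
    (η : ι → Fin t → Z → (Fin d → Cm n) → ℂ)
    (hC : IsPeriodForms (Cm n) (Cm p) f (⋃₀ 𝒢) r N κ Q s B w e U π P η)
    (hκ : ∀ D, (κ D : ℝ) ≤ N * Δ' D) (ΔF : Set F → ℝ) (hr : kodX E₀ ΔF ≤ (r : WithBot ℕ∞)) :
    kodX E₀ ΔF + kodF n p Δ j f ≤ kodX (Cm n) Δ ∧
      OrbLe (Cm n) (Cm p) f Δ' (kodF n p Δ j f) := by
  refine ⟨periods hN hn hF h κ U π P η hC hκ ΔF hr, orbLe_of h ?_⟩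
  obtain ⟨hX, hZ, hY, hj, hf, h1, h2, h3, h4, h5⟩ := h
  have hE : finrank ℂ (Cm n) = finrank ℂ (Cm p) + d := by rw [fr, fr, hn]
  obtain ⟨z, hz⟩ := exists_off hj f h1 h2 (by
    intro y hy
    obtain ⟨a, ha⟩ := (hC.cover y).1 hy
    obtain ⟨x, hx, -⟩ := hC.rank a y ha
    exact ⟨x, hx⟩)
  obtain ⟨ζ, hζ, hinj⟩ := hC.chart z hz
  have hζ : ∀ l, HolV (Cm n) (ζ l) z := hζ
  have h7 : Function.Surjective (dM (Cm n) (Cm p) f z) :=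
    surj_of_coord (E₀ := Fin d → ℂ) (P := dV (Cm n) (vec ζ) z)
        (by simp [hn]) fun ξ h1 h2 => hinj ξ h1 fun l => by
          have h3 := dV_vec hζ ξ l
          rw [h2] at h3
          exact h3.symm
  exact ⟨z, h7⟩

end Vale.Agent.P281.H713.TZ.S
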