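import Vale.Agent.P281.H713.TZ.SFinC
import Vale.Agent.P281.H713.TZ.S3
import Vale.Agent.P281.H713.TZ.S4

/-! P281: the final statements, with Campana's orbifold base dimension `κ(f | Δ)`. -/

namespace Vale.Agent.P281.H713.TZ.S

open scoped Manifold ContDiff Topology
open Filter Set Vale.Agent.P281 Vale.Agent.P281.H713

theorem OrbLe.kapLe {E E' : Type} [NormedAddCommGroup E] [NormedSpace ℂ E] [NormedAddCommGroup E']
    [NormedSpace ℂ E'] {Z Y : Type} [TopologicalSpace Z] [ChartedSpace E Z] [TopologicalSpace Y]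
    [ChartedSpace E' Y] {f : Z → Y} {Δ' : Set Z → ℝ} {c : WithBot ℕ∞} (h : OrbLe E E' f Δ' c) :
    KapLe E E' f Δ' c := by
  intro Γ h1 h2 h3 h4 h5
  have h6 := h Γ h1 h2 h3 h4 h5
  refine ⟨h6, ?_⟩
  intro M₀ X₁ tX cX f₁ Δ₁ hL hΓ
  refine le_trans (iInf₂_le _ hL) ?_
  rw [← hΓ]
  exact h6

variable {E E' : Type} [NormedAddCommGroup E] [NormedSpace ℂ E]
  [NormedAddCommGroup E'] [NormedSpace ℂ E']
  {X Y : Type} [TopologicalSpace X] [ChartedSpace E X]
  [TopologicalSpace Y] [ChartedSpace E' Y]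
  {V : Type} [NormedAddCommGroup V] [InnerProductSpace ℂ V] [FiniteDimensional ℂ V]

theorem HasPeriodForms.old {n m d b t : ℕ} {f : X → Y} {S : Set Y} {r N : ℕ} {κ : Set X → ℕ}
    {Q : (Fin n → ℝ) → (Fin n → ℝ) → ℝ} {s : ℕ} {B : Fin b → Matrix (Fin m) (Fin m) ℝ}
    {w : Fin b → Fin m → ℝ} {e : Fin b → ℕ} {ι : Type} {U : ι → Set Y}
    {π : ι → Y → ((Fin n → ℝ) ≃L[ℝ] V)} {p : ι → Y → Fin b → Fin m → ℂ}
    {η : ι → Fin t → X → (Fin d → E) → ℂ}
    (h : HasPeriodForms E E' f S r N κ Q s B w e U π p η) :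
    IsPeriodForms E E' f S r N κ Q s B w e U π p η where
  toIsPeriodFamily := h.toIsPeriodFamily
  period := h.period
  chart := h.chart
  forms := h.forms
  rank := h.rank
  change := h.change
  norm := h.norm

end Vale.Agent.P281.H713.TZ.S
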